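import Vale.Agent.P097D.Defs
import Vale.Agent.P097U.Hall

/-!
# P097D: exponential decay from tiny values on large sets (Hall)
-/

set_option linter.all false

noncomputable section

namespace Vale.Agent.P097D

open Set Metric MeasureTheory Complex

lemma dec_den {y : ℂ} (hy : y.im ≤ 0) : 1 ≤ ‖y - I‖ ∧ ‖y‖ ≤ ‖y - I‖ := by
  constructor
  · have := Complex.abs_im_le_norm (y - I)
    simp only [sub_im, I_im] at this
    linarith [neg_abs_le (y.im - 1)]
  · refine abs_le_of_sq_le_sq' ?_ (norm_nonneg _) |>.2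
    rw [Complex.sq_norm, Complex.sq_norm, normSq_apply, normSq_apply]
    simp only [sub_re, sub_im, I_re, I_im]
    nlinarith

theorem dec : S_DEC := by
  intro g τ C c hg hτ hc hG hA
  have hG' : ∀ y : ℂ, y.im ≤ -τ / 2 → ‖g y‖ ^ 8 ≤ C * (1 + ‖y‖) := fun y hy => by
    simpa using hG y hy
  have C0 : 0 ≤ C := by
    have := hG' (-(τ : ℂ) * I) (by simp; linarith)
    by_contra h
    have h2 : C * (1 + ‖-(τ : ℂ) * I‖) < 0 := mul_neg_of_neg_of_pos (not_le.1 h) (by positivity)
    linarith [pow_nonneg (norm_nonneg (g (-(τ : ℂ) * I))) 8]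
  let φ : ℂ → ℂ := fun z => -z - (τ / 2 : ℝ) * I
  have φim : ∀ z, (φ z).im = -z.im - τ / 2 := fun z => by simp [φ]
  have φφ : ∀ z, φ (φ z) = z := fun z => by simp only [φ]; ring
  have φs : ∀ z w, ‖φ z - φ w‖ = ‖z - w‖ := fun z w => by
    rw [show φ z - φ w = -(z - w) by simp only [φ]; ring, norm_neg]
  let f : ℂ → ℂ := fun z => g (φ z) ^ 8 / (φ z - I)
  have nf : ∀ z, ‖f z‖ = ‖g (φ z)‖ ^ 8 / ‖φ z - I‖ := fun z => by simp only [f, norm_div, norm_pow]
  have hf : DifferentiableOn ℂ f {z | 0 < z.im} := by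
    have dφ : Differentiable ℂ φ := by simp only [φ]; fun_prop
    refine DifferentiableOn.div ((hg.comp dφ.differentiableOn fun z hz => ?_).pow 8)
      (dφ.sub_const I).differentiableOn fun z hz => ?_
    · have : 0 < z.im := hz
      show (φ z).im < 0
      rw [φim]; linarith
    · have : 0 < z.im := hz
      have := (dec_den (y := φ z) (by rw [φim]; linarith)).1
      intro e
      rw [e, norm_zero] at this
      linarith
  have hM : ∀ z : ℂ, 0 < z.im → ‖f z‖ ≤ 2 * C + 1 := fun z hz => by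
    obtain ⟨a1, a2⟩ := dec_den (y := φ z) (by rw [φim]; linarith)
    rw [nf, div_le_iff₀ (by linarith)]
    have := hG' (φ z) (by rw [φim]; linarith)
    nlinarith
  refine ⟨c / 17280, 2 * C + 1, by positivity, fun y hy => ?_⟩
  obtain ⟨t, ht, A, hA, hV⟩ := hA (‖y‖ + 1)
  have y0 := norm_nonneg y
  have t0 : 0 < t := by linarith
  have z0 : 0 < (φ y).im := by rw [φim]; linarith
  have z1 : (φ y).im ≤ t := by
    rw [φim]; linarith [neg_abs_le y.im, Complex.abs_im_le_norm y]
  have m1 : Real.exp (-(8 * (c * t))) ≤ 1 := Real.exp_le_one_iff.2 (by nlinarith [mul_pos hc t0])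
  have key := P097U.hall_half (f := f) (M := 2 * C + 1) (m := Real.exp (-(8 * (c * t))))
    (D := 4 * t) (ℓ := t / 4) (ω := (φ y).im / (69120 * t)) hf hM (Real.exp_pos _) (by linarith)
    (fun z => ‖φ z‖) (fun z w => (abs_norm_sub_norm_le _ _).trans (φs z w).le) (E := φ ⁻¹' A)
    (τ := τ / 2) (by linarith)
    (fun z hz => by have := (hA _ hz).1; rw [φim] at this; linarith)
    (fun z hz => by
      obtain ⟨a1, -, a3⟩ := hA _ hz
      have b1 := (dec_den (y := φ z) (by linarith)).1
      rw [nf]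
      refine (div_le_self (by positivity) b1).trans ((pow_le_pow_left₀ (norm_nonneg _) a3 8).trans_eq ?_)
      rw [← Real.exp_nat_mul]
      congr 1
      push_cast
      ring)
    (hV.trans (measure_mono fun s ⟨w, hw, e⟩ => ⟨φ w, by simpa only [mem_preimage, φφ] using hw,
      by simpa only [φφ] using e⟩))
    z0 (by linarith)
    (fun z hz => by
      rw [← φs, φφ]
      linarith [norm_sub_le y (φ z), (hA _ hz).2.1])
    (by rw [div_le_one (by positivity)]; linarith)
    (by
      have e : t / 4 * ((φ y).im / (480 * (6 * t) ^ 2)) = (φ y).im / (69120 * t) := by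
        field_simp; ring
      rw [← e]
      gcongr
      linarith)
  have w0 : 0 ≤ (φ y).im / (69120 * t) := by positivity
  have k1 : (2 * C + 1) ^ (1 - (φ y).im / (69120 * t)) ≤ 2 * C + 1 := by
    have := Real.rpow_le_rpow_of_exponent_le (x := 2 * C + 1) (by linarith)
      (show 1 - (φ y).im / (69120 * t) ≤ 1 by linarith)
    rwa [Real.rpow_one] at this
  have k2 : Real.exp (-(8 * (c * t))) ^ ((φ y).im / (69120 * t)) ≤ Real.exp (c / 17280 * y.im) := by
    rw [← Real.exp_mul]
    refine Real.exp_le_exp.2 ?_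
    have e : -(8 * (c * t)) * ((φ y).im / (69120 * t)) = -(c / 8640 * (φ y).im) := by
      field_simp; ring
    rw [e, φim]
    nlinarith
  have k3 : ‖f (φ y)‖ ≤ Real.exp (c / 17280 * y.im) * (2 * C + 1) :=
    key.trans (mul_le_mul k2 k1 (by positivity) (Real.exp_pos _).le)
  have b1 := (dec_den (y := y) (by linarith)).1
  rw [nf, φφ, div_le_iff₀ (by linarith)] at k3
  have b2 : ‖y - I‖ ≤ 1 + ‖y‖ := by simpa [add_comm] using norm_sub_le y I
  calc _ ≤ _ := k3
    _ ≤ Real.exp (c / 17280 * y.im) * (2 * C + 1) * (1 + ‖y‖) := by gcongr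
    _ = _ := by ring

end Vale.Agent.P097D
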