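import Vale.Agent.P097D.Defs

/-!
# P097D: the energy
-/

set_option linter.all false

noncomputable section

namespace Vale.Agent.P097D

open Set Metric MeasureTheory Filter

theorem en (I : S_INJ) (V : S_VAL) (M : S_MUL) : S_EN := by
  intro k
  obtain ⟨N, hN⟩ := V k
  refine ⟨N, fun g Y δ W T τ R h => ?_⟩
  classical
  have hU : IsOpen (Lo T) := isOpen_lt Complex.continuous_im continuous_const
  have hc : IsPreconnected (Lo T) := (convex_halfSpace_im_lt T).isPreconnected
  have an : AnalyticOnNhd ℂ (fun x => δ x * Complex.sin (δ x)) (Lo T) :=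
    (h.anδ.mul h.anδ.csin).analyticOnNhd hU
  have ae0 : ∀ᵐ x, x ∈ Lo T → δ x * Complex.sin (δ x) ≠ 0 := by
    rcases an.eqOn_zero_or_eventually_ne_zero_of_preconnected hc with h0 | h0
    · obtain ⟨x, hx, hx'⟩ := h.ne
      exact absurd (h0 hx) hx'
    · exact (ae_restrict_iff' hU.measurableSet).1
        (ae_restrict_le_codiscreteWithin (μ := volume) hU.measurableSet h0)
  let E : Set ℂ := {x | x ∈ Lo T ∧ ‖δ x‖ ≤ k ∧ ‖Y x‖ ≤ R ∧ δ x * Complex.sin (δ x) ≠ 0}
  have hE : MeasurableSet E := by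
    have c1 := continuousOn_iff_continuous_restrict.1 h.anδ.continuousOn
    have c2 := continuousOn_iff_continuous_restrict.1 h.anY.continuousOn
    have c3 := continuousOn_iff_continuous_restrict.1 an.continuousOn
    have := hU.measurableSet.subtype_image
      (((isClosed_le c1.norm (continuous_const (y := k))).measurableSet.inter
        (isClosed_le c2.norm (continuous_const (y := R))).measurableSet).inter
        (isOpen_ne_fun c3 (continuous_const (y := 0))).measurableSet)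
    refine (congrArg MeasurableSet (Set.ext fun x => ⟨?_, ?_⟩)).mp this
    · rintro ⟨y, ⟨⟨h1, h2⟩, h3⟩, rfl⟩
      exact ⟨y.2, h1, h2, h3⟩
    · rintro ⟨h0, h1, h2, h3⟩
      exact ⟨⟨x, h0⟩, ⟨⟨h1, h2⟩, h3⟩, rfl⟩
  have e : {x | x ∈ Lo T ∧ ‖δ x‖ ≤ k ∧ ‖Y x‖ ≤ R} =ᵐ[volume] E := by
    filter_upwards [ae0] with x hx
    exact propext ⟨fun h => ⟨h.1, h.2.1, h.2.2, hx h.1⟩, fun h => ⟨h.1, h.2.1, h.2.2.1⟩⟩
  rw [Measure.restrict_congr_set e]
  refine M (Lo T) E _ Y N hU h.anY hE (fun x hx => hx.1)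
    (fun x hx => mem_closedBall_zero_iff.2 hx.2.2.1) (fun x hx h0 => ?_) fun y F hF => ?_
  · have := h.ode x hx.1
    rw [h0, mul_zero] at this
    exact hx.2.2.2 (by rw [(mul_eq_zero.1 this.symm).resolve_left two_ne_zero, zero_mul])
  · rw [← Finset.card_image_of_injOn (f := δ) fun x hx x' hx' e =>
      I g Y δ W T τ h x (hF x hx).1.1 x' (hF x' hx').1.1 (hF x hx).1.2.2.2
        ((hF x hx).2.trans (hF x' hx').2.symm) e]
    refine hN ((W * g y) ^ 3 / 24) _ fun z hz => ?_
    obtain ⟨x, hx, rfl⟩ := Finset.mem_image.1 hz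
    refine ⟨(hF x hx).1.2.1, ?_⟩
    rw [← (hF x hx).2, h.inv x (hF x hx).1.1]
    ring

end Vale.Agent.P097D
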