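import Vale.Agent.P097D.Defs

/-!
# P097D: excursions have density zero
-/

set_option linter.all false

noncomputable section

namespace Vale.Agent.P097D

open Set Metric MeasureTheory

/-- one of many separated columns carries a small part of the energy -/
theorem exc_pick (f : ℂ → ENNReal) (G : Set ℂ) (J : Finset ℝ) (w E S : ℝ) (hJ : Sep J w)
    (E0 : 0 ≤ E) (S0 : 0 ≤ S) (hG : ∫⁻ z in G, f z ≤ ENNReal.ofReal S) (hS : S < J.card * E) :
    ∃ a ∈ J, ∫⁻ z in {z : ℂ | |z.re - a| ≤ w} ∩ G, f z ≤ ENNReal.ofReal E := by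
  by_contra hn
  push Not at hn
  have ms : ∀ a : ℝ, MeasurableSet {z : ℂ | |z.re - a| ≤ w} := fun a =>
    (isClosed_le (by fun_prop) continuous_const).measurableSet
  have a1 : ∑ a ∈ J, ∫⁻ z in {z : ℂ | |z.re - a| ≤ w} ∩ G, f z ≤ ∫⁻ z in G, f z := by
    have e : ∀ a : ℝ, ∫⁻ z in {z : ℂ | |z.re - a| ≤ w} ∩ G, f z =
        ∫⁻ z in {z : ℂ | |z.re - a| ≤ w}, f z ∂(volume.restrict G) := fun a => by
      rw [Measure.restrict_restrict (ms a)]
    simp only [e]
    rw [← lintegral_biUnion_finset (fun a ha b hb ab => ?_) fun a _ => ms a]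
    · exact setLIntegral_le_lintegral _ _
    · refine Set.disjoint_left.2 fun z h1 h2 => ?_
      have h3 := hJ a ha b hb ab
      have h4 := abs_sub_le a z.re b
      rw [abs_sub_comm a z.re] at h4
      simp only [mem_setOf_eq] at h1 h2
      linarith
  have a2 := Finset.card_nsmul_le_sum J _ _ fun a ha => (hn a ha).le
  have a3 := a2.trans (a1.trans hG)
  rw [nsmul_eq_mul, ← ENNReal.ofReal_natCast, ← ENNReal.ofReal_mul (Nat.cast_nonneg _),
    ENNReal.ofReal_le_ofReal_iff S0] at a3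
  linarith

theorem exc (E : S_EN) (R : S_RAY) (D : S_DEC) : S_EXC := by
  intro g Y δ W T τ C D₁ L k w ν M T0 TD k0 w0 ν0 gp nd
  by_contra hn
  push Not at hn
  obtain ⟨N, hN⟩ := E k
  have D0 : 0 < D₁ := by linarith
  have W0 := M.W0
  obtain ⟨A, A0, hA⟩ : ∃ A : ℝ, 0 < A ∧ ν * A = 36 * N + 1 :=
    ⟨(36 * N + 1) / ν, by positivity, by field_simp⟩
  refine nd (D g τ C (1 / (4 * A)) M.ang M.τ0 (by positivity) gp fun t₀ => ?_)
  obtain ⟨t, ht, J, sp, hJ, cJ⟩ := hn (max (max t₀ 1) (max L (16 * k * D₁ / W)))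
  have t1 : t₀ ≤ t := ((le_max_left _ _).trans (le_max_left _ _)).trans ht
  have t2 : 1 ≤ t := ((le_max_right _ _).trans (le_max_left _ _)).trans ht
  have t3 : L ≤ t := ((le_max_left _ _).trans (le_max_right _ _)).trans ht
  have t4 : 16 * k * D₁ / W ≤ t := ((le_max_right _ _).trans (le_max_right _ _)).trans ht
  have t0 : 0 < t := by linarith
  have en : ∫⁻ x in {x | x ∈ Lo T ∧ ‖δ x‖ ≤ k ∧ ‖Y x‖ ≤ 3 * t}, ‖deriv Y x‖ₑ ^ 2 ≤
      ENNReal.ofReal (N * (36 * t ^ 2)) := by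
    refine (hN g Y δ W T τ (3 * t) M).trans ?_
    rw [ENNReal.ofReal_mul (Nat.cast_nonneg _), ENNReal.ofReal_natCast, Complex.volume_closedBall,
      ← ENNReal.ofReal_pow (by positivity), ← ENNReal.ofReal_coe_nnreal, NNReal.coe_real_pi,
      ← ENNReal.ofReal_mul (by positivity)]
    refine mul_le_mul_right (ENNReal.ofReal_le_ofReal ?_) _
    nlinarith [Real.pi_le_four, sq_nonneg t]
  obtain ⟨a, ha, ea⟩ := exc_pick _ _ J _ (A * t) _ sp (by positivity) (by positivity) en (by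
    have a1 := mul_lt_mul_of_pos_right cJ (mul_pos A0 t0)
    have a2 : ν * t * (A * t) = (36 * N + 1) * t ^ 2 := by rw [← hA]; ring
    nlinarith [mul_pos t0 t0])
  obtain ⟨at', bt, sh, x, xT, xa, xD, xY⟩ := hJ a ha
  have re : ∀ z : ℂ, ‖z - x‖ ≤ 2 * D₁ → |z.re - a| ≤ w + 2 * D₁ ∧ -3 * D₁ ≤ z.im := fun z hz => by
    have a1 := (Complex.abs_re_le_norm (z - x)).trans hz
    have a2 := (Complex.abs_im_le_norm (z - x)).trans hz
    rw [Complex.sub_re] at a1
    rw [Complex.sub_im] at a2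
    exact ⟨by linarith [abs_sub_le z.re x.re a], by linarith [(abs_le.1 a2).1]⟩
  have x0 : 0 < t / (4 * A) := by positivity
  obtain ⟨B, b1, b2⟩ := R g Y δ W T τ D₁ k t (A * t) (2 * D₁ * Real.exp (-(t / (4 * A)))) x M t0 k0
    (by positivity) (mul_le_of_le_one_right (by positivity) (Real.exp_le_one_iff.2 (by linarith)))
    (by positivity) xT xY (fun z zT h1 _ => sh z zT (re z h1).1 (re z h1).2)
    (fun z h1 h2 => by
      have xT' : x.im < T := xT
      have a1 := (bt z (re z h1.le).1 (re z h1.le).2 (by linarith)).1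
      have a2 := norm_add_le (Y z - a) a
      rw [sub_add_cancel, Complex.norm_real, Real.norm_eq_abs] at a2
      linarith)
    (le_trans (lintegral_mono_set fun z hz => mem_inter (re z hz.2.1).1
      (And.intro hz.1 ⟨sh z hz.1 (re z hz.2.1).1 (re z hz.2.1).2, hz.2.2.2⟩)) ea)
    (by
      have e : 2 * D₁ / (2 * D₁ * Real.exp (-(t / (4 * A)))) = Real.exp (t / (4 * A)) := by
        rw [Real.exp_neg]; field_simp
      rw [e, Real.log_exp]
      exact le_of_eq (by field_simp))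
  refine ⟨t, t1, B, fun y hy => ⟨(b1 y hy).1, (b1 y hy).2.1, (b1 y hy).2.2.trans ?_⟩, b2⟩
  have e : 1 / (4 * A) * t = t / (4 * A) := by ring
  rw [e, div_le_iff₀ (by positivity)]
  rw [div_le_iff₀ W0] at t4
  nlinarith [Real.exp_pos (-(t / (4 * A)))]

end Vale.Agent.P097D
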