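import Vale.Agent.P097D.Defs

/-!
# P097D: the state map of the limit leaf is injective at regular states
-/

set_option linter.all false

noncomputable section

namespace Vale.Agent.P097D

open Set Metric Filter Topology

theorem Lo_open (T : ℝ) : IsOpen (Lo T) := isOpen_lt Complex.continuous_im continuous_const

theorem Lo_convex (T : ℝ) : Convex ℝ (Lo T) := convex_halfSpace_im_lt T

theorem SS_deriv (z : ℂ) : HasDerivAt SS (z * Complex.sin z) z :=
  ((Complex.hasDerivAt_sin z).sub ((hasDerivAt_id z).mul (Complex.hasDerivAt_cos z))).congr_deriv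
    (by simp)

theorem SS_an (z : ℂ) : AnalyticAt ℂ SS z :=
  Differentiable.analyticAt (fun z => (SS_deriv z).differentiableAt) z

/-- local injectivity of an analytic function with nonzero derivative -/
theorem loc_inj {f : ℂ → ℂ} {z : ℂ} (hf : AnalyticAt ℂ f z) (h0 : deriv f z ≠ 0) :
    ∃ U ∈ 𝓝 z, InjOn f U := by
  have h := hf.hasStrictDerivAt
  have := (h.hasStrictFDerivAt_equiv h0).eventually_left_inverse
  exact ⟨_, this, fun a ha b hb e => by
    have h1 : _ = a := ha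
    have h2 : _ = b := hb
    rw [← h1, ← h2, e]⟩

namespace ML

variable {g Y δ : ℂ → ℂ} {W T τ : ℝ}

theorem aY (M : ML g W T τ Y δ) {x : ℂ} (hx : x ∈ Lo T) : AnalyticAt ℂ Y x :=
  M.anY.analyticAt ((Lo_open T).mem_nhds hx)

theorem aδ (M : ML g W T τ Y δ) {x : ℂ} (hx : x ∈ Lo T) : AnalyticAt ℂ δ x :=
  M.anδ.analyticAt ((Lo_open T).mem_nhds hx)

theorem mem (M : ML g W T τ Y δ) {x : ℂ} (hx : x ∈ Lo T) : Y x ∈ Lo 0 :=
  lt_of_le_of_lt (M.dep x hx) (neg_lt_zero.2 M.τ0)

theorem ag (M : ML g W T τ Y δ) {y : ℂ} (hy : y ∈ Lo 0) : AnalyticAt ℂ g y :=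
  M.ang.analyticAt ((Lo_open 0).mem_nhds hy)

theorem dY_ne (M : ML g W T τ Y δ) {x : ℂ} (hx : x ∈ Lo T) (h : δ x ≠ 0) : deriv Y x ≠ 0 :=
  fun e => h (by have := M.ode x hx; rw [e, mul_zero] at this; simpa using this.symm)

theorem s_ne (M : ML g W T τ Y δ) {x : ℂ} (hx : x ∈ Lo T) (h : δ x ≠ 0) : W * g (Y x) ≠ 0 :=
  fun e => h (by have := M.ode x hx; rw [e, zero_mul] at this; simpa using this.symm)

end ML

theorem inj : S_INJ := by
  intro g Y δ W T τ M x hx x' hx' hr eY eδ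
  have h0 : δ x ≠ 0 := left_ne_zero_of_mul hr
  have h0' : δ x' ≠ 0 := eδ ▸ h0
  have aY := M.aY hx
  have aY' := M.aY hx'
  have d' := M.dY_ne hx' h0'
  -- `φ` near `x` with `Y (φ z) = Y z`
  have hs := aY'.hasStrictDerivAt
  set ι := hs.localInverse Y _ x' d' with hι
  have ιs : HasStrictDerivAt ι (deriv Y x')⁻¹ (Y x') := hs.to_localInverse d'
  have ιa : AnalyticAt ℂ ι (Y x') := by
    have := aY'.contDiffAt (n := ⊤)
    exact (this.to_localInverse (hs.hasStrictFDerivAt_equiv d').hasFDerivAt (by simp)).analyticAt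
  have ι0 : ι (Y x') = x' := (hs.hasStrictFDerivAt_equiv d').localInverse_apply_image
  have ιr : ∀ᶠ y in 𝓝 (Y x'), Y (ι y) = y := (hs.hasStrictFDerivAt_equiv d').eventually_right_inverse
  set φ : ℂ → ℂ := fun z => ι (Y z) with hφ
  have φa : AnalyticAt ℂ φ x := AnalyticAt.comp (eY ▸ ιa) aY
  have φ0 : φ x = x' := by simp only [hφ, eY, ι0]
  have tY : Tendsto Y (𝓝 x) (𝓝 (Y x')) := eY ▸ aY.continuousAt
  have tφ : Tendsto φ (𝓝 x) (𝓝 x') := φ0 ▸ φa.continuousAt
  have e1 : ∀ᶠ z in 𝓝 x, Y (φ z) = Y z := tY.eventually ιr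
  obtain ⟨U, hU, iU⟩ := loc_inj (SS_an (δ x)) (by rw [(SS_deriv _).deriv]; exact hr)
  have m1 : ∀ᶠ z in 𝓝 x, z ∈ Lo T := (Lo_open T).mem_nhds hx
  have m2 : ∀ᶠ z in 𝓝 x, φ z ∈ Lo T := tφ.eventually ((Lo_open T).mem_nhds hx')
  have u1 : ∀ᶠ z in 𝓝 x, δ z ∈ U := (M.aδ hx).continuousAt.eventually hU
  have u2 : ∀ᶠ z in 𝓝 x, δ (φ z) ∈ U :=
    (((M.aδ hx').continuousAt.tendsto.comp tφ)).eventually (eδ ▸ hU)
  have n1 : ∀ᶠ z in 𝓝 x, δ z ≠ 0 := (M.aδ hx).continuousAt.eventually_ne h0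
  have e2 : ∀ᶠ z in 𝓝 x, deriv φ z = 1 := by
    filter_upwards [e1, e1.eventually_nhds, m1, m2, u1, u2, n1, φa.eventually_analyticAt]
      with z e1 e1' m1 m2 u1 u2 n1 a
    have e3 : δ (φ z) = δ z := iU u2 u1 (by
      have h1 := M.inv _ m1
      have h2 := M.inv _ m2
      rw [e1, h1] at h2
      exact (mul_left_cancel₀ (by norm_num) h2).symm)
    have e4 : deriv Y (φ z) = deriv Y z := by
      have h1 := M.ode _ m1
      have h2 := M.ode _ m2
      rw [e1, e3, ← h1] at h2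
      exact mul_left_cancel₀ (M.s_ne m1 n1) h2
    have e5 : deriv Y (φ z) * deriv φ z = deriv Y z :=
      (((M.aY m2).differentiableAt.hasDerivAt.comp z
        a.differentiableAt.hasDerivAt).congr_of_eventuallyEq (EventuallyEq.symm e1')).deriv.symm
    rw [e4] at e5
    exact mul_left_cancel₀ (M.dY_ne m1 n1) (e5.trans (mul_one _).symm)
  have e3 : ∀ᶠ z in 𝓝 x, φ z = z + (x' - x) := by
    obtain ⟨ε, hε, hb⟩ := Metric.eventually_nhds_iff_ball.1 (e2.and φa.eventually_analyticAt)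
    filter_upwards [ball_mem_nhds x hε] with z hz
    have := (convex_ball x ε).is_const_of_fderivWithin_eq_zero (𝕜 := ℂ) (f := fun z => φ z - z)
      (fun w hw => ((hb w hw).2.differentiableAt.sub differentiableAt_id).differentiableWithinAt)
      (fun w hw => by
        rw [fderivWithin_of_isOpen isOpen_ball hw]
        have h1 : HasDerivAt (fun z => φ z - z) (deriv φ w - 1) w :=
          (hb w hw).2.differentiableAt.hasDerivAt.sub (hasDerivAt_id w)
        rw [(hb w hw).1, sub_self] at h1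
        rw [h1.hasFDerivAt.fderiv]
        simp) hz (mem_ball_self hε)
    simp only [φ0] at this
    linear_combination this
  set b := x' - x with hb
  have key : b = 0 := by
    refine M.np b ?_
    set V : Set ℂ := Lo T ∩ Lo (T - b.im) with hV
    have mV : ∀ z, z ∈ V ↔ z ∈ Lo T ∧ z + b ∈ Lo T := fun z => by
      simp only [hV, Lo, mem_inter_iff, mem_setOf_eq, Complex.add_im, lt_sub_iff_add_lt]
    have hE : EqOn (fun z => Y (z + b)) Y V :=
      AnalyticOnNhd.eqOn_of_preconnected_of_eventuallyEq (𝕜 := ℂ)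
        (fun z hz => AnalyticAt.comp (g := Y) (f := fun z => z + b) (M.aY ((mV z).1 hz).2)
          (by fun_prop))
        (fun z hz => M.aY ((mV z).1 hz).1) ((Lo_convex _).inter (Lo_convex _)).isPreconnected
        ((mV x).2 ⟨hx, by simpa [hb] using hx'⟩) (by
          filter_upwards [e1, e3] with z e1 e3
          rw [← e3, e1])
    exact fun z h1 h2 => hE ((mV z).2 ⟨h1, h2⟩)
  exact (sub_eq_zero.1 key).symm

end Vale.Agent.P097D
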