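import Vale.Agent.P097D.Defs

/-!
# P097D: area with multiplicity
-/

set_option linter.all false

noncomputable section

namespace Vale.Agent.P097D

open Set Metric MeasureTheory Filter Topology

namespace MulA

theorem abs_det (c : ℂ) :
    |((ContinuousLinearMap.toSpanSingleton ℂ c).restrictScalars ℝ : ℂ →L[ℝ] ℂ).det| = ‖c‖ ^ 2 := by
  have h : ((ContinuousLinearMap.toSpanSingleton ℂ c).restrictScalars ℝ : ℂ →L[ℝ] ℂ).det =
      c.re ^ 2 + c.im ^ 2 := by
    rw [ContinuousLinearMap.det, ← LinearMap.det_toMatrix Complex.basisOneI, Matrix.det_fin_two]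
    simp [LinearMap.toMatrix_apply]
    ring
  rw [h, abs_of_nonneg (by positivity), Complex.sq_norm, Complex.normSq_apply]
  ring

theorem piece {U E : Set ℂ} {Y : ℂ → ℂ} (hU : IsOpen U) (hY : DifferentiableOn ℂ Y U)
    (hE : MeasurableSet E) (hEU : E ⊆ U) (hi : InjOn Y E) :
    ∫⁻ x in E, ‖deriv Y x‖ₑ ^ 2 = volume (Y '' E) ∧ MeasurableSet (Y '' E) := by
  have hd : ∀ z ∈ E, HasFDerivWithinAt Y
      ((ContinuousLinearMap.toSpanSingleton ℂ (deriv Y z)).restrictScalars ℝ : ℂ →L[ℝ] ℂ) E z :=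
    fun z hz => (((hY.differentiableAt
      (hU.mem_nhds (hEU hz))).hasDerivAt.hasFDerivAt).restrictScalars ℝ).hasFDerivWithinAt
  refine ⟨?_, measurable_image_of_fderivWithin hE hd hi⟩
  rw [← lintegral_abs_det_fderiv_eq_addHaar_image volume hE hd hi]
  refine lintegral_congr fun z => ?_
  rw [abs_det, ← ofReal_norm, ENNReal.ofReal_pow (norm_nonneg _)]

theorem cover {U E : Set ℂ} {Y : ℂ → ℂ} (hU : IsOpen U) (hY : DifferentiableOn ℂ Y U)
    (hEU : E ⊆ U) (h0 : ∀ x ∈ E, deriv Y x ≠ 0) :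
    ∃ V : ℕ → Set ℂ, (∀ i, IsOpen (V i) ∧ InjOn Y (V i)) ∧ E ⊆ ⋃ i, V i := by
  have hc : (insert ∅ {V | V ∈ TopologicalSpace.countableBasis ℂ ∧ InjOn Y V}).Countable :=
    ((TopologicalSpace.countable_countableBasis ℂ).mono fun V hV => hV.1).insert ∅
  obtain ⟨V, hV⟩ := hc.exists_eq_range (insert_nonempty _ _)
  refine ⟨V, fun i => ?_, fun x hx => ?_⟩
  · have : V i ∈ insert ∅ {V | V ∈ TopologicalSpace.countableBasis ℂ ∧ InjOn Y V} :=
      hV ▸ mem_range_self i
    rcases this with e | e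
    · rw [e]
      exact ⟨isOpen_empty, injOn_empty _⟩
    · exact ⟨TopologicalSpace.isOpen_of_mem_countableBasis e.1, e.2⟩
  · have ha : AnalyticAt ℂ Y x := hY.analyticAt (hU.mem_nhds (hEU hx))
    have hs := ha.hasStrictDerivAt
    have hl := HasStrictDerivAt.eventually_left_inverse hs (h0 x hx)
    obtain ⟨W, hW, hxW, hsub⟩ := (TopologicalSpace.isBasis_countableBasis ℂ).mem_nhds_iff.1 hl
    have hi : InjOn Y W := fun a ha b hb e => by
      have e1 : HasStrictDerivAt.localInverse Y (deriv Y x) x hs (h0 x hx) (Y a) = a := hsub ha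
      have e2 : HasStrictDerivAt.localInverse Y (deriv Y x) x hs (h0 x hx) (Y b) = b := hsub hb
      rw [← e1, ← e2, e]
    have : W ∈ range V := hV ▸ mem_insert_of_mem _ ⟨hW, hi⟩
    obtain ⟨i, rfl⟩ := this
    exact mem_iUnion.2 ⟨i, hxW⟩

end MulA

open MulA in
theorem mul : S_MUL := by
  classical
  intro U E B Y N hU hY hE hEU hB h0 hN
  obtain ⟨V, hV, hc⟩ := cover hU hY hEU h0
  set P : ℕ → Set ℂ := fun i => E ∩ disjointed V i with hP
  have mP : ∀ i, MeasurableSet (P i) := fun i =>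
    hE.inter (MeasurableSet.disjointed (fun j => (hV j).1.measurableSet) i)
  have dP : Pairwise (Function.onFun Disjoint P) := fun i j hij =>
    (disjoint_disjointed V hij).mono inter_subset_right inter_subset_right
  have uP : E = ⋃ i, P i := by
    rw [hP, ← inter_iUnion, iUnion_disjointed, inter_eq_left.2 hc]
  have pc := fun i => piece hU hY (mP i) (fun x hx => hEU hx.1)
    ((hV i).2.mono fun x hx => disjointed_subset V i hx.2)
  have e1 : ∫⁻ x in E, ‖deriv Y x‖ₑ ^ 2 = ∑' i, ∫⁻ x in P i, ‖deriv Y x‖ₑ ^ 2 := by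
    conv_lhs => rw [uP]
    exact lintegral_iUnion mP dP _
  have e2 : ∀ i, ∫⁻ x in P i, ‖deriv Y x‖ₑ ^ 2 =
      ∫⁻ y, (Y '' P i).indicator (fun _ => (1 : ENNReal)) y := fun i => by
    rw [(pc i).1, lintegral_indicator_const (pc i).2, one_mul]
  rw [e1, tsum_congr e2, ← lintegral_tsum fun i =>
    (measurable_const.indicator (pc i).2).aemeasurable]
  refine le_trans (lintegral_mono fun y => ?_) (lintegral_indicator_const_le B (N : ENNReal))
  refine ENNReal.tsum_eq_iSup_sum.trans_le (iSup_le fun s => ?_)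
  by_cases hy : y ∈ B
  · rw [indicator_of_mem hy]
    have e3 : ∑ i ∈ s, (Y '' P i).indicator (fun _ => (1 : ENNReal)) y =
        ((s.filter fun i => y ∈ Y '' P i).card : ENNReal) := by
      rw [Finset.card_filter, Nat.cast_sum]
      refine Finset.sum_congr rfl fun i _ => ?_
      by_cases h : y ∈ Y '' P i
      · rw [indicator_of_mem h, if_pos h, Nat.cast_one]
      · rw [indicator_of_notMem h, if_neg h, Nat.cast_zero]
    rw [e3, Nat.cast_le]
    have ch : ∀ i, ∃ x, y ∈ Y '' P i → x ∈ P i ∧ Y x = y := fun i => by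
      by_cases h : y ∈ Y '' P i
      · obtain ⟨x, hx, e⟩ := h
        exact ⟨x, fun _ => ⟨hx, e⟩⟩
      · exact ⟨0, fun k => absurd k h⟩
    choose x hx using ch
    rw [← Finset.card_image_of_injOn (f := x)]
    · refine hN y _ fun z hz => ?_
      obtain ⟨i, hi, rfl⟩ := Finset.mem_image.1 hz
      have := hx i (Finset.mem_filter.1 hi).2
      exact ⟨this.1.1, this.2⟩
    · intro i hi j hj e
      by_contra ne
      have a := (hx i (Finset.mem_filter.1 (Finset.mem_coe.1 hi)).2).1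
      have b := (hx j (Finset.mem_filter.1 (Finset.mem_coe.1 hj)).2).1
      exact Set.disjoint_left.1 (dP ne) a (e ▸ b)
  · rw [indicator_of_notMem hy]
    refine le_of_eq (Finset.sum_eq_zero fun i _ => indicator_of_notMem ?_ _)
    rintro ⟨x, hx, rfl⟩
    exact hy (hB hx.1)

end Vale.Agent.P097D
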