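import Vale.Agent.P097D.Defs

/-!
# P097D: one place for most parameters
-/

set_option linter.all false

noncomputable section

namespace Vale.Agent.P097D

open Set Metric MeasureTheory

/-- counting under the integral -/
theorem one_count (J : Finset ℝ) (S : ℝ → Set ℝ) (E : Set ℝ) (c : ℝ)
    [∀ W, DecidablePred fun a => W ∈ S a]
    (h : ∀ W ∈ E, c ≤ ((J.filter fun a => W ∈ S a).card : ℝ)) :
    ENNReal.ofReal c * volume E ≤ ∑ a ∈ J, volume (S a) := by
  set f : ℝ → ENNReal := fun x => ∑ a ∈ J, (toMeasurable volume (S a)).indicator 1 x with hf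
  have hm : ∀ a ∈ J, Measurable ((toMeasurable volume (S a)).indicator (1 : ℝ → ENNReal)) :=
    fun a _ => measurable_one.indicator (measurableSet_toMeasurable _ _)
  have h1 : ∫⁻ x, f x = ∑ a ∈ J, volume (S a) := by
    rw [hf, lintegral_finsetSum _ hm]
    refine Finset.sum_congr rfl fun a _ => ?_
    rw [lintegral_indicator_one (measurableSet_toMeasurable _ _), measure_toMeasurable]
  have h2 : Measurable f := Finset.measurable_sum _ hm
  have h3 : E ⊆ {x | ENNReal.ofReal c ≤ f x} := by
    intro W hW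
    have h4 : (((J.filter fun a => W ∈ S a).card : ℕ) : ENNReal) ≤ f W := by
      rw [Finset.card_filter, Nat.cast_sum]
      refine Finset.sum_le_sum fun a _ => ?_
      by_cases ha : W ∈ S a
      · rw [if_pos ha, indicator_of_mem (subset_toMeasurable _ _ ha)]
        simp
      · rw [if_neg ha]
        simp
    refine le_trans ?_ h4
    rw [← ENNReal.ofReal_natCast]
    exact ENNReal.ofReal_le_ofReal (h W hW)
  rw [← h1]
  exact (mul_le_mul_right (measure_mono h3) _).trans (mul_meas_ge_le_lintegral h2 _)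

theorem one : S_ONE := by
  classical
  intro I P Bad w κ ε hI hV hκ hε hJ hB
  set V : ℝ := (volume I).toReal with hVd
  have hV0 : 0 ≤ V := ENNReal.toReal_nonneg
  set η : ℝ := ε / (2 * (V + 1)) with hη
  have hη0 : 0 < η := by positivity
  have hηV : η * V ≤ ε / 2 := by
    rw [hη, div_mul_eq_mul_div, div_le_div_iff₀ (by positivity) (by positivity)]
    nlinarith
  set E : ℕ → Set ℝ := fun m => {W | W ∈ I ∧ ∀ t ≥ (m : ℝ), ∀ J : Finset ℝ, Sep J w →
    (∀ a ∈ J, |a| ≤ t ∧ P a ∧ Bad a W) → (J.card : ℝ) ≤ κ * η * t} with hE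
  have hmono : Monotone E := by
    intro m m' hm W hW
    exact ⟨hW.1, fun t ht => hW.2 t (le_trans (Nat.cast_le.2 hm) ht)⟩
  have hU : ⋃ m, E m = I := by
    refine Subset.antisymm (iUnion_subset fun m W hW => hW.1) fun W hW => ?_
    obtain ⟨t₀, ht₀⟩ := hB W hW (κ * η) (by positivity)
    obtain ⟨m, hm⟩ := exists_nat_ge t₀
    exact mem_iUnion.2 ⟨m, hW, fun t ht => ht₀ t (le_trans hm ht)⟩
  have hEI : ∀ m, volume (E m) ≤ volume I := fun m => measure_mono fun W hW => hW.1
  have hEf : ∀ m, volume (E m) ≠ ⊤ := fun m => ne_top_of_le_ne_top hV (hEI m)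
  obtain ⟨m, hm⟩ : ∃ m, V ≤ (volume (E m)).toReal + ε / 2 := by
    by_contra hc
    push Not at hc
    have h0 : 0 ≤ V - ε / 2 := by
      have := hc 0
      have := ENNReal.toReal_nonneg (a := volume (E 0))
      linarith
    have h1 : volume I ≤ ENNReal.ofReal (V - ε / 2) := by
      rw [← hU, hmono.measure_iUnion]
      refine iSup_le fun m => ?_
      rw [← ENNReal.ofReal_toReal (hEf m)]
      exact ENNReal.ofReal_le_ofReal (by linarith [hc m])
    have h2 := ENNReal.toReal_mono ENNReal.ofReal_ne_top h1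
    rw [ENNReal.toReal_ofReal h0] at h2
    linarith
  obtain ⟨t, ht, J, hS, hP, hc⟩ := hJ (max m 1)
  have ht1 : 1 ≤ t := le_trans (le_max_right _ _) ht
  have htm : (m : ℝ) ≤ t := le_trans (le_max_left _ _) ht
  have hJ0 : (0 : ℝ) < J.card := lt_of_lt_of_le (by positivity) hc
  set S : ℝ → Set ℝ := fun a => {W | W ∈ I ∧ ¬ Bad a W} with hSd
  have hSf : ∀ a, volume (S a) ≠ ⊤ := fun a =>
    ne_top_of_le_ne_top hV (measure_mono fun W hW => hW.1)
  have hcount := one_count J S (E m) ((1 - η) * J.card) (by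
    intro W hW
    have h1 := hW.2 t htm (J.filter fun a => ¬ W ∈ S a)
      (fun a ha b hb => hS a (Finset.mem_filter.1 ha).1 b (Finset.mem_filter.1 hb).1) (by
        intro a ha
        obtain ⟨ha1, ha2⟩ := Finset.mem_filter.1 ha
        refine ⟨(hP a ha1).1, (hP a ha1).2, ?_⟩
        by_contra hb
        exact ha2 ⟨hW.1, hb⟩)
    have h2 := Finset.card_filter_add_card_filter_not (s := J) (fun a => W ∈ S a)
    have h3 : ((J.filter fun a => W ∈ S a).card : ℝ) + (J.filter fun a => ¬ W ∈ S a).card =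
        J.card := by exact_mod_cast h2
    have h4 := mul_le_mul_of_nonneg_left hc hη0.le
    nlinarith)
  have hsum : (1 - η) * J.card * (volume (E m)).toReal ≤ ∑ a ∈ J, (volume (S a)).toReal := by
    have h1 := ENNReal.toReal_mono (ENNReal.sum_ne_top.2 fun a _ => hSf a) hcount
    rw [ENNReal.toReal_mul, ENNReal.toReal_sum (fun a _ => hSf a), ENNReal.toReal_ofReal'] at h1
    exact le_trans (mul_le_mul_of_nonneg_right (le_max_left _ _) ENNReal.toReal_nonneg) h1
  by_contra hcon
  push Not at hcon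
  have h5 : ∀ a ∈ J, (volume (S a)).toReal ≤ V - ε - 0 := by
    intro a ha
    have h1 := (hcon a (hP a ha).2).le
    have h2 := ENNReal.toReal_mono hV h1
    rw [ENNReal.toReal_add (hSf a) ENNReal.ofReal_ne_top, ENNReal.toReal_ofReal hε.le] at h2
    linarith
  obtain ⟨a₀, ha₀⟩ : J.Nonempty := Finset.card_pos.1 (by exact_mod_cast hJ0)
  have h6 : ∑ a ∈ J, (volume (S a)).toReal < ∑ a ∈ J, (V - ε) := by
    refine Finset.sum_lt_sum (fun a ha => by linarith [h5 a ha]) ⟨a₀, ha₀, ?_⟩
    have h1 := hcon a₀ (hP a₀ ha₀).2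
    have h2 := ENNReal.toReal_strict_mono hV h1
    rw [ENNReal.toReal_add (hSf a₀) ENNReal.ofReal_ne_top, ENNReal.toReal_ofReal hε.le] at h2
    linarith
  rw [Finset.sum_const, nsmul_eq_mul] at h6
  have hu : (volume (E m)).toReal ≤ V := ENNReal.toReal_mono hV (hEI m)
  have h7 : V - ε ≤ (1 - η) * (volume (E m)).toReal := by
    have := mul_le_mul_of_nonneg_left hu hη0.le
    nlinarith
  have h8 := mul_le_mul_of_nonneg_left h7 hJ0.le
  nlinarith

end Vale.Agent.P097D
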