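import Vale.Agent.P097D.Sh

/-!
# P097D: a ray with small energy
-/

set_option linter.all false

noncomputable section

namespace Vale.Agent.P097D

open Set Metric Complex Filter Topology MeasureTheory
open scoped ENNReal

/-- polar coordinates: one direction with small radial integral -/
theorem ray_dir (F : ℂ → ℝ≥0∞) (hF : Measurable F) (x : ℂ) : ∃ e : ℂ, ‖e‖ = 1 ∧ e.im ≤ -1 / 2 ∧
    ∫⁻ ρ in Ioi (0 : ℝ), ENNReal.ofReal ρ * F (x + ρ * e) ≤ (∫⁻ z, F z) / 2 := by
  set Θ : Set ℝ := Icc (-(Real.pi / 2) - 1) (-(Real.pi / 2) + 1) with hΘ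
  have v : volume Θ = 2 := by
    rw [hΘ, Real.volume_Icc, show -(Real.pi / 2) + 1 - (-(Real.pi / 2) - 1) = 2 by ring]; simp
  set H : ℝ × ℝ → ℝ≥0∞ := fun p => ENNReal.ofReal p.1 *
    F (x + p.1 * (Real.cos p.2 + Real.sin p.2 * I)) with hH
  have mH : Measurable H := by
    refine (ENNReal.measurable_ofReal.comp measurable_fst).mul (hF.comp ?_)
    fun_prop
  have h1 : ∫⁻ θ in Θ, ∫⁻ ρ in Ioi (0 : ℝ), H (ρ, θ) ≤ ∫⁻ z, F z := by
    rw [← setLIntegral_prod_symm H mH.aemeasurable, ← lintegral_add_left_eq_self F x,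
      ← Complex.lintegral_comp_polarCoord_symm]
    simp only [Complex.polarCoord_symm_apply, smul_eq_mul]
    refine lintegral_mono_set (μ := volume) (f := H) ?_
    rintro ⟨ρ, θ⟩ ⟨h, h'⟩
    have := Real.pi_gt_three
    exact ⟨h, by linarith [h'.1], by linarith [h'.2]⟩
  obtain ⟨θ, hθ, h2⟩ := exists_le_setLAverage (μ := volume) (s := Θ)
    (f := fun θ => ∫⁻ ρ in Ioi (0 : ℝ), H (ρ, θ)) (by simp [v]) (by simp [v])
    (mH.lintegral_prod_left' (μ := volume.restrict (Ioi (0 : ℝ)))).aemeasurable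
  rw [setLAverage_eq, v] at h2
  refine ⟨Real.cos θ + Real.sin θ * I, ?_, ?_, h2.trans (by gcongr)⟩
  · simpa using Complex.norm_cos_add_sin_mul_I θ
  · have e : Real.sin θ = -Real.cos (θ + Real.pi / 2) := by rw [Real.cos_add_pi_div_two]; ring
    have := Real.one_sub_sq_div_two_le_cos (x := θ + Real.pi / 2)
    have b : (θ + Real.pi / 2) ^ 2 ≤ 1 := by nlinarith [hθ.1, hθ.2]
    simp only [add_im, ofReal_im, mul_im, ofReal_re, I_im, I_re]
    linarith

/-- the measure of the set of the moduli along a curve -/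
theorem ray_img {c c' : ℝ → ℂ} {P : Set ℝ} (hP : MeasurableSet P)
    (hc : ∀ ρ ∈ P, HasDerivAt c (c' ρ) ρ) (h0 : ∀ ρ ∈ P, c ρ ≠ 0) :
    volume ((fun ρ => ‖c ρ‖) '' P) ≤ ∫⁻ ρ in P, ENNReal.ofReal ‖c' ρ‖ := by
  have d : ∀ ρ ∈ P, HasDerivAt (fun ρ => ‖c ρ‖) (fderiv ℝ (fun y : ℂ => ‖y‖) (c ρ) (c' ρ)) ρ :=
    fun ρ h => ((differentiableAt_id.norm ℝ (h0 ρ h)).hasFDerivAt).comp_hasDerivAt ρ (hc ρ h)
  refine (addHaar_image_le_lintegral_abs_det_fderiv volume hP
    fun ρ h => (d ρ h).hasFDerivAt.hasFDerivWithinAt).trans (setLIntegral_mono' hP fun ρ h => ?_)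
  simp only [ContinuousLinearMap.det_toSpanSingleton]
  rw [← Real.norm_eq_abs]
  refine ENNReal.ofReal_le_ofReal ((ContinuousLinearMap.le_opNorm _ _).trans ?_)
  have := norm_fderiv_le_of_lipschitz ℝ (x₀ := c ρ) (lipschitzWith_one_norm (E := ℂ))
  simpa using mul_le_mul_of_nonneg_right this (norm_nonneg (c' ρ))

theorem ray_log {r R l : ℝ} (hr : 0 < r) (hR : r ≤ R) (hl : 0 < l) :
    ∫⁻ ρ in Icc r R, ENNReal.ofReal ((2 * l)⁻¹ * ρ⁻¹) =
      ENNReal.ofReal ((2 * l)⁻¹ * Real.log (R / r)) := by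
  rw [← integral_inv_of_pos hr (hr.trans_le hR), ← intervalIntegral.integral_const_mul,
    intervalIntegral.integral_of_le hR, ← integral_Icc_eq_integral_Ioc,
    ofReal_integral_eq_lintegral_ofReal]
  · refine ContinuousOn.integrableOn_Icc (continuousOn_const.mul (continuousOn_id.inv₀ ?_))
    exact fun ρ h => (hr.trans_le h.1).ne'
  · refine (ae_restrict_mem measurableSet_Icc).mono fun ρ h => ?_
    have := hr.trans_le h.1
    positivity

theorem ray : S_RAY := by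
  intro g Y δ W T τ D₁ k t E r x m t0 k0 r0 rD E0 hx h3 hδ h2 hE hl
  have W0 := m.W0
  have τ0 := m.τ0
  set S := {z | z ∈ Lo T ∧ ‖z - x‖ ≤ 2 * D₁ ∧ z.im ≤ x.im ∧ ‖Y z‖ ≤ 3 * t} with hS
  have mS : MeasurableSet S := by
    have o := (m.anY.continuousOn.norm).isOpen_inter_preimage (sh_open T) (isOpen_Ioi (a := 3 * t))
    have e : S = (Lo T \ (Lo T ∩ (fun z => ‖Y z‖) ⁻¹' Ioi (3 * t))) ∩
        ({z | ‖z - x‖ ≤ 2 * D₁} ∩ {z | z.im ≤ x.im}) := by
      ext z
      simp only [hS, mem_setOf_eq, mem_inter_iff, mem_diff, mem_preimage, mem_Ioi, not_and, not_lt]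
      tauto
    rw [e]
    exact ((sh_open T).measurableSet.diff o.measurableSet).inter
      ((isClosed_le (by fun_prop) continuous_const).measurableSet.inter
        (isClosed_le (by fun_prop) continuous_const).measurableSet)
  obtain ⟨e, e1, e2, hG⟩ := ray_dir (S.indicator fun z => ‖deriv Y z‖ₑ ^ 2)
    (((measurable_deriv Y).enorm.pow_const 2).indicator mS) x
  rw [lintegral_indicator mS] at hG
  replace hG := hG.trans (ENNReal.div_le_div_right hE 2)
  have im : ∀ ρ : ℝ, 0 ≤ ρ → (x + ρ * e).im ≤ x.im - ρ / 2 := fun ρ h => by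
    simp only [add_im, mul_im, ofReal_re, ofReal_im]
    nlinarith
  have lo : ∀ ρ : ℝ, 0 ≤ ρ → x + ρ * e ∈ Lo T := fun ρ h => by
    have : x.im < T := hx
    show (x + ρ * e).im < T
    linarith [im ρ h]
  have nr : ∀ ρ : ℝ, 0 ≤ ρ → ‖x + ρ * e - x‖ = ρ := fun ρ h => by
    rw [add_sub_cancel_left, norm_mul, e1, norm_real, Real.norm_of_nonneg h, mul_one]
  set c : ℝ → ℂ := fun ρ => Y (x + ρ * e) with hc
  have dc : ∀ ρ : ℝ, 0 ≤ ρ → HasDerivAt c (deriv Y (x + ρ * e) * e) ρ := fun ρ h => by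
    have d1 := (m.anY.differentiableAt ((sh_open T).mem_nhds (lo ρ h))).hasDerivAt
    have d2 : HasDerivAt (fun z : ℂ => x + z * e) e (ρ : ℂ) := by
      simpa using ((hasDerivAt_id (ρ : ℂ)).mul_const e).const_add x
    exact (d1.comp (ρ : ℂ) d2).comp_ofReal
  have dp : ∀ ρ : ℝ, 0 ≤ ρ → (c ρ).im ≤ -τ := fun ρ h => m.dep _ (lo ρ h)
  have c0 : ∀ ρ : ℝ, 0 ≤ ρ → c ρ ≠ 0 := fun ρ h n => by
    have := dp ρ h
    rw [n, zero_im] at this
    linarith
  have cc : ContinuousOn c (Ici 0) := fun ρ h => (dc ρ h).continuousAt.continuousWithinAt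
  have img : ∀ P : Set ℝ, MeasurableSet P → P ⊆ Ici 0 → volume ((fun ρ => ‖c ρ‖) '' P) ≤
      ∫⁻ ρ in P, ENNReal.ofReal ‖deriv Y (x + ρ * e)‖ := fun P hP h => by
    simpa only [norm_mul, e1, mul_one] using
      ray_img hP (fun ρ hρ => dc ρ (h hρ)) fun ρ hρ => c0 ρ (h hρ)
  set μ := 8 * k * r / (W * t) with hμ
  set P₁ := Icc r (2 * D₁) ∩ (fun ρ => ‖c ρ‖) ⁻¹' Iic (3 * t) with hP₁
  set Q := Icc 0 r ∩ (fun ρ => ‖g (c ρ)‖) ⁻¹' Iic μ with hQ
  have s1 : Icc r (2 * D₁) ⊆ Ici 0 := fun ρ h => r0.le.trans h.1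
  have m1 : MeasurableSet P₁ :=
    ((cc.mono s1).norm.preimage_isClosed_of_isClosed isClosed_Icc isClosed_Iic).measurableSet
  have mQ : MeasurableSet Q := by
    refine (ContinuousOn.preimage_isClosed_of_isClosed ?_ isClosed_Icc isClosed_Iic).measurableSet
    refine (m.ang.continuousOn.comp (cc.mono Icc_subset_Ici_self) fun ρ h => ?_).norm
    have := dp ρ h.1
    show (c ρ).im < 0
    linarith
  obtain ⟨l, l0, hl'⟩ : ∃ l : ℝ, 0 < l ∧
      l / 2 * (E / 2) + (2 * l)⁻¹ * Real.log (2 * D₁ / r) ≤ t / 2 := by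
    have L0 : 0 ≤ Real.log (2 * D₁ / r) := Real.log_nonneg ((one_le_div r0).2 rD)
    set Λ := Real.log (2 * D₁ / r)
    rcases E0.eq_or_lt with h | h
    · refine ⟨(Λ + 1) / t, by positivity, ?_⟩
      rw [← h, show (2 * ((Λ + 1) / t))⁻¹ * Λ = t / 2 * (Λ / (Λ + 1)) by field_simp]
      have : Λ / (Λ + 1) ≤ 1 := div_le_one_of_le₀ (by linarith) (by linarith)
      nlinarith
    · refine ⟨t / E, by positivity, ?_⟩
      rw [show t / E / 2 * (E / 2) = t / 4 by field_simp; ring,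
        show (2 * (t / E))⁻¹ * Λ = 4 * E * Λ / (8 * t) by field_simp; ring]
      have : 4 * E * Λ / (8 * t) ≤ t / 4 := by
        rw [div_le_iff₀ (by positivity)]; nlinarith
      linarith
  have v1 : volume ((fun ρ => ‖c ρ‖) '' P₁) ≤ ENNReal.ofReal (t / 2) := by
    refine (img P₁ m1 (inter_subset_left.trans s1)).trans ?_
    calc _ ≤ ∫⁻ ρ in P₁, ENNReal.ofReal (l / 2) * (ENNReal.ofReal ρ *
            S.indicator (fun z => ‖deriv Y z‖ₑ ^ 2) (x + ρ * e)) +
            ENNReal.ofReal ((2 * l)⁻¹ * ρ⁻¹) := by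
          refine setLIntegral_mono' m1 fun ρ h => ?_
          have p : 0 < ρ := r0.trans_le h.1.1
          have s : x + ρ * e ∈ S :=
            ⟨lo ρ p.le, by rw [nr ρ p.le]; exact h.1.2, by linarith [im ρ p.le], h.2⟩
          rw [indicator_of_mem s, ← ofReal_norm_eq_enorm, ← ENNReal.ofReal_pow (norm_nonneg _),
            ← ENNReal.ofReal_mul p.le, ← ENNReal.ofReal_mul (by positivity),
            ← ENNReal.ofReal_add (by positivity) (by positivity)]
          refine ENNReal.ofReal_le_ofReal ?_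
          set u := ‖deriv Y (x + ρ * e)‖
          rw [show l / 2 * (ρ * u ^ 2) + (2 * l)⁻¹ * ρ⁻¹ = u + (l * ρ * u - 1) ^ 2 / (2 * l * ρ) by
            field_simp; ring]
          exact le_add_of_nonneg_right (by positivity)
      _ ≤ ENNReal.ofReal (l / 2) * (ENNReal.ofReal E / 2) +
            ENNReal.ofReal ((2 * l)⁻¹ * Real.log (2 * D₁ / r)) := by
          rw [lintegral_add_right _ (by fun_prop), lintegral_const_mul' _ _ ENNReal.ofReal_ne_top,
            ← ray_log r0 rD l0]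
          gcongr
          · exact (lintegral_mono_set fun ρ h => r0.trans_le h.1.1).trans hG
          · exact inter_subset_left
      _ ≤ _ := by
          rw [← ENNReal.ofReal_ofNat 2, ← ENNReal.ofReal_div_of_pos two_pos,
            ← ENNReal.ofReal_mul (by positivity), ← ENNReal.ofReal_add (by positivity)
              (mul_nonneg (by positivity) (Real.log_nonneg ((one_le_div r0).2 rD)))]
          exact ENNReal.ofReal_le_ofReal hl'
  have v2 : volume ((fun ρ => ‖c ρ‖) '' (Icc 0 r \ Q)) ≤ ENNReal.ofReal (t / 4) := by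
    have mD : MeasurableSet (Icc 0 r \ Q) := measurableSet_Icc.diff mQ
    refine (img _ mD fun ρ h => h.1.1).trans ?_
    calc _ ≤ ∫⁻ ρ in Icc 0 r \ Q, ENNReal.ofReal (t / (4 * r)) := by
          refine setLIntegral_mono' mD fun ρ h => ENNReal.ofReal_le_ofReal ?_
          have p := h.1.1
          have g1 : μ < ‖g (c ρ)‖ := lt_of_not_ge fun n => h.2 ⟨h.1, n⟩
          have o := congrArg norm (m.ode _ (lo ρ p))
          rw [norm_mul, norm_mul, norm_mul, norm_real, Real.norm_of_nonneg W0.le] at o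
          have b := hδ _ (lo ρ p) (by rw [nr ρ p]; exact h.1.2.trans rD) (by linarith [im ρ p])
          have : W * μ * ‖deriv Y (x + ρ * e)‖ ≤ 2 * k := by
            calc _ ≤ W * ‖g (c ρ)‖ * ‖deriv Y (x + ρ * e)‖ := by gcongr
              _ = ‖(2 : ℂ)‖ * ‖δ (x + ρ * e)‖ := o
              _ ≤ _ := by rw [show ‖(2 : ℂ)‖ = 2 by simp]; gcongr
          rw [show W * μ = 2 * k * (4 * r / t) by rw [hμ]; field_simp; ring, mul_assoc] at this
          rw [le_div_iff₀ (by positivity)]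
          have := le_of_mul_le_mul_left (this.trans_eq (mul_one _).symm) (by positivity)
          rw [div_mul_eq_mul_div, div_le_one t0] at this
          linarith
      _ ≤ ∫⁻ ρ in Icc 0 r, ENNReal.ofReal (t / (4 * r)) := lintegral_mono_set diff_subset
      _ = _ := by
          rw [setLIntegral_const, Real.volume_Icc, ← ENNReal.ofReal_mul (by positivity)]
          congr 1
          field_simp
          ring
  refine ⟨c '' (Q ∩ {ρ | ‖c ρ‖ ≤ 3 * t}), ?_, ?_⟩
  · rintro _ ⟨ρ, h, rfl⟩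
    exact ⟨dp ρ h.1.1.1, h.2, h.1.2⟩
  have D0 : 0 ≤ 2 * D₁ := r0.le.trans rD
  have iv := intermediate_value_Icc' D0 (cc.mono Icc_subset_Ici_self).norm
  have cov : Icc (2 * t) (3 * t) ⊆ (fun ρ => ‖c ρ‖) '' P₁ ∪ (fun ρ => ‖c ρ‖) '' (Icc 0 r \ Q) ∪
      (fun y : ℂ => ‖y‖) '' (c '' (Q ∩ {ρ | ‖c ρ‖ ≤ 3 * t})) := fun s hs => by
    obtain ⟨ρ, h, rfl⟩ := iv (a := s) ⟨(h2 _ (nr _ D0) (by linarith [im _ D0])).trans hs.1,
      hs.2.trans (by simpa [hc] using h3)⟩
    rcases le_total r ρ with p | p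
    · exact Or.inl (Or.inl ⟨ρ, ⟨⟨p, h.2⟩, hs.2⟩, rfl⟩)
    · by_cases q : ρ ∈ Q
      · exact Or.inr ⟨_, ⟨ρ, ⟨q, hs.2⟩, rfl⟩, rfl⟩
      · exact Or.inl (Or.inr ⟨ρ, ⟨⟨h.1, p⟩, q⟩, rfl⟩)
  have fin := (measure_mono (μ := volume) cov).trans ((measure_union_le _ _).trans
    (add_le_add ((measure_union_le _ _).trans (add_le_add v1 v2)) le_rfl))
  rw [Real.volume_Icc, show 3 * t - 2 * t = t / 2 + t / 4 + t / 4 by ring,
    ENNReal.ofReal_add (by positivity) (by positivity),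
    ENNReal.ofReal_add (by positivity) (by positivity)] at fin
  exact (ENNReal.add_le_add_iff_left (by finiteness)).1 fin

end Vale.Agent.P097D
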