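import Vale.Agent.P097D.Defs

/-! # P097D: valence of the model function -/

set_option linter.all false

noncomputable section

namespace Vale.Agent.P097D

open Set Metric

namespace Val

/-- zero count by the maximum modulus principle -/
theorem zc (c : ℂ) (R : ℝ) (hR : 0 < R) (F : Finset ℂ) : ∀ (f : ℂ → ℂ) (M : ℝ),
    Differentiable ℂ f → (∀ z ∈ F, f z = 0 ∧ ‖z - c‖ ≤ R) →
    (∀ z ∈ sphere c (3 * R), ‖f z‖ ≤ M) → ‖f c‖ ≤ M / 2 ^ F.card := by
  classical
  induction F using Finset.induction_on with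
  | empty =>
    intro f M hf _ hM
    rw [Finset.card_empty, pow_zero, div_one]
    refine Complex.norm_le_of_forall_mem_frontier_norm_le (U := ball c (3 * R)) isBounded_ball
      hf.diffContOnCl (fun z hz => hM z ?_) (subset_closure (mem_ball_self (by positivity)))
    rwa [frontier_ball c (by positivity)] at hz
  | insert a F ha ih =>
    intro f M hf hF hM
    have h0 := hF a (Finset.mem_insert_self _ _)
    have e : ∀ z, f z = (z - a) * dslope f a z := by
      intro z
      have h := sub_smul_dslope f a z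
      rw [h0.1, sub_zero, smul_eq_mul] at h
      exact h.symm
    have hg : Differentiable ℂ (dslope f a) := by
      rw [← differentiableOn_univ]
      exact (Complex.differentiableOn_dslope Filter.univ_mem).2 hf.differentiableOn
    have h1 := ih (dslope f a) (M / (2 * R)) hg (fun z hz => ?_) (fun z hz => ?_)
    · rw [Finset.card_insert_of_notMem ha, e c, norm_mul]
      have h2 : ‖c - a‖ ≤ R := by rw [norm_sub_rev]; exact h0.2
      calc ‖c - a‖ * ‖dslope f a c‖ ≤ R * (M / (2 * R) / 2 ^ F.card) := by gcongr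
        _ = M / 2 ^ (F.card + 1) := by field_simp; ring
    · have h2 := hF z (Finset.mem_insert_of_mem hz)
      refine ⟨?_, h2.2⟩
      have h3 : z - a ≠ 0 := sub_ne_zero.2 fun h => ha (h ▸ hz)
      have h4 := e z
      rw [h2.1] at h4
      exact (mul_eq_zero.1 h4.symm).resolve_left h3
    · have h2 := hM z hz
      rw [e z, norm_mul] at h2
      have h3 : 2 * R ≤ ‖z - a‖ := by
        have h4 : ‖z - c‖ = 3 * R := by rwa [mem_sphere, dist_eq_norm] at hz
        have h5 : ‖z - c‖ ≤ ‖z - a‖ + ‖a - c‖ := by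
          have := norm_add_le (z - a) (a - c)
          rwa [sub_add_sub_cancel] at this
        linarith [h0.2]
      rw [le_div_iff₀ (by positivity)]
      calc ‖dslope f a z‖ * (2 * R) ≤ ‖dslope f a z‖ * ‖z - a‖ := by gcongr
        _ ≤ M := by rw [mul_comm]; exact h2

theorem dSS : Differentiable ℂ SS := by
  unfold SS
  fun_prop

theorem SS_nat (m : ℕ) : ‖SS ((m : ℂ) * (2 * Real.pi))‖ = m * (2 * Real.pi) := by
  have h1 : Complex.sin ((m : ℂ) * (2 * Real.pi)) = 0 := by
    have := Complex.sin_periodic.nat_mul_eq m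
    rwa [Complex.sin_zero] at this
  have h2 : Complex.cos ((m : ℂ) * (2 * Real.pi)) = 1 := Complex.cos_nat_mul_two_pi m
  rw [SS, h1, h2, zero_sub, mul_one, norm_neg, norm_mul, norm_mul, Complex.norm_natCast,
    Complex.norm_real, Complex.norm_two, Real.norm_of_nonneg Real.pi_pos.le]

end Val

open Val

theorem val : S_VAL := by
  intro k
  obtain ⟨M₀, h0⟩ := (isCompact_closedBall (0 : ℂ) k).exists_bound_of_continuousOn
    dSS.continuous.continuousOn
  set m : ℕ := ⌈M₀ + 1⌉₊ with hm
  set c : ℂ := (m : ℂ) * (2 * Real.pi) with hc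
  set R : ℝ := ‖c‖ + |k| + 1 with hRd
  have hR : 0 < R := by positivity
  obtain ⟨M₁, h1⟩ := (isCompact_sphere c (3 * R)).exists_bound_of_continuousOn
    dSS.continuous.continuousOn
  refine ⟨⌈M₁ + M₀⌉₊, fun v F hF => ?_⟩
  rcases F.eq_empty_or_nonempty with rfl | ⟨z₀, hz₀⟩
  · simp
  have hv : ‖v‖ ≤ M₀ := by
    rw [← (hF z₀ hz₀).2]
    exact h0 z₀ (mem_closedBall_zero_iff.2 (hF z₀ hz₀).1)
  have h2 := zc c R hR F (fun z => SS z - v) (M₁ + M₀) (dSS.sub_const v) (fun z hz => ?_)
    (fun z hz => (norm_sub_le _ _).trans (add_le_add (h1 z hz) hv))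
  · have h3 : 1 ≤ ‖SS c - v‖ := by
      have h4 : ‖SS c‖ - ‖v‖ ≤ ‖SS c - v‖ := norm_sub_norm_le _ _
      rw [hc, SS_nat] at h4
      have h5 : M₀ + 1 ≤ (m : ℝ) := Nat.le_ceil _
      have h6 : (m : ℝ) ≤ m * (2 * Real.pi) :=
        le_mul_of_one_le_right (Nat.cast_nonneg m) (by linarith [Real.pi_gt_three])
      rw [hc]
      linarith
    have h4 : (2 : ℝ) ^ F.card ≤ M₁ + M₀ := by
      have h5 := h3.trans h2
      rwa [le_div_iff₀ (by positivity), one_mul] at h5
    have h5 : (F.card : ℝ) ≤ 2 ^ F.card := by exact_mod_cast (Nat.lt_two_pow_self).le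
    have h6 : (F.card : ℝ) ≤ (⌈M₁ + M₀⌉₊ : ℕ) := (h5.trans h4).trans (Nat.le_ceil _)
    exact_mod_cast h6
  · refine ⟨sub_eq_zero.2 (hF z hz).2, ?_⟩
    have h3 := norm_sub_le z c
    have h4 := (hF z hz).1
    have h5 := le_abs_self k
    rw [hRd]
    linarith

end Vale.Agent.P097D
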