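import Vale.Agent.P097D.Col
import Vale.Agent.P097D.Dec
import Vale.Agent.P097D.En
import Vale.Agent.P097D.Exc
import Vale.Agent.P097D.Inj
import Vale.Agent.P097D.Mul
import Vale.Agent.P097D.One
import Vale.Agent.P097D.Ray
import Vale.Agent.P097D.Val

/-!
# P097D: one bounded column
-/

namespace Vale.Agent.P097D

theorem exc' : S_EXC := exc (en inj val mul) ray dec

theorem bnd : S_COL := col sh exc' one

end Vale.Agent.P097D
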