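import Vale.Agent.P097D.Defs

/-!
# P097D: one good place for most steps
-/

set_option linter.all false

noncomputable section

namespace Vale.Agent.P097D

open Set Metric MeasureTheory

theorem col (S : S_SH) (X : S_EXC) (O : S_ONE) : S_COL := by
  intro g Y δ T I P τ C W₁ D₁ L w κ ε mI vI w0 κ0 ε0 hM G0 nD hP hJ
  obtain ⟨k, k1, hk⟩ := S τ C W₁ D₁ L
  have sh : ∀ a, P a → ∀ W ∈ I, Sheet (δ W) (T W) D₁ k (w + 2 * D₁) a := fun a pa W hW =>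
    hk g (Y W) (δ W) W (T W) _ a (hM W hW).1 (hM W hW).2.1 (hM W hW).2.2.1 (hM W hW).2.2.2
      (hP a pa).1 ((hP a pa).2 W hW)
  obtain ⟨a, pa, ha⟩ := O I P (fun a W => ∀ R, Exc (Y W) (T W) D₁ w a R) (w + 2 * D₁) κ ε mI vI
    κ0 ε0 hJ (fun W hW ν ν0 => by
      obtain ⟨t₀, ht⟩ := X g (Y W) (δ W) W (T W) τ C D₁ L k w ν (hM W hW).1 (hM W hW).2.2.1
        (hM W hW).2.2.2 (by linarith) w0 ν0 G0 nD
      exact ⟨t₀, fun t tt J sJ hj => ht t tt J sJ fun a aJ =>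
        ⟨(hj a aJ).1, (hP a (hj a aJ).2.1).2 W hW, sh a (hj a aJ).2.1 W hW, (hj a aJ).2.2 _⟩⟩)
  exact ⟨a, k, pa, sh a pa, by simpa only [not_forall] using ha⟩

end Vale.Agent.P097D
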