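import Mathlib

/-!
# P097D: the limit leaf of a circle window, sheets and excursions (definitions and statements)

The curve lives on the lower half plane `Lo 0`, the leaf on `Lo T`.
-/

set_option linter.all false

noncomputable section

namespace Vale.Agent.P097D

open Set Metric MeasureTheory

/-- the model function -/
def SS (z : ℂ) : ℂ := Complex.sin z - z * Complex.cos z

/-- lower half plane -/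
def Lo (T : ℝ) : Set ℂ := {x | x.im < T}

/-- the limit leaf with step `W` and top `T`, at depth at least `τ` -/
structure ML (g : ℂ → ℂ) (W T τ : ℝ) (Y δ : ℂ → ℂ) : Prop where
  W0 : 0 < W
  τ0 : 0 < τ
  ang : DifferentiableOn ℂ g (Lo 0)
  anY : DifferentiableOn ℂ Y (Lo T)
  anδ : DifferentiableOn ℂ δ (Lo T)
  dep : ∀ x ∈ Lo T, (Y x).im ≤ -τ
  inv : ∀ x ∈ Lo T, (W * g (Y x)) ^ 3 = 24 * SS (δ x)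
  ode : ∀ x ∈ Lo T, W * g (Y x) * deriv Y x = 2 * δ x
  np : ∀ b : ℂ, (∀ x ∈ Lo T, x + b ∈ Lo T → Y (x + b) = Y x) → b = 0
  ne : ∃ x ∈ Lo T, δ x * Complex.sin (δ x) ≠ 0

/-- a good place of the curve -/
def GP (g : ℂ → ℂ) (τ C a : ℝ) : Prop :=
  ∀ y : ℂ, y.im ≤ -τ / 2 → ‖g y‖ ^ 8 ≤ C * (1 + ‖y - a‖)

/-- the leaf is principal at the bottom of the column of half width `w` at the place `a` -/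
def Bot (Y δ : ℂ → ℂ) (D₁ L w a : ℝ) : Prop := ∀ x : ℂ, |x.re - a| ≤ w → -3 * D₁ ≤ x.im →
  x.im ≤ -D₁ → ‖Y x - a‖ ≤ L ∧ ‖δ x‖ ≤ 1

/-- the half angle is bounded by `k` on the column -/
def Sheet (δ : ℂ → ℂ) (T D₁ k w a : ℝ) : Prop :=
  ∀ x ∈ Lo T, |x.re - a| ≤ w → -3 * D₁ ≤ x.im → ‖δ x‖ ≤ k

/-- an excursion of size `R` in the column -/
def Exc (Y : ℂ → ℂ) (T D₁ w a R : ℝ) : Prop :=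
  ∃ x ∈ Lo T, |x.re - a| ≤ w ∧ -D₁ ≤ x.im ∧ R ≤ ‖Y x‖

/-- exponential decay of the curve -/
def Decay (g : ℂ → ℂ) (τ : ℝ) : Prop := ∃ c C : ℝ, 0 < c ∧
  ∀ y : ℂ, y.im ≤ -τ → ‖g y‖ ^ 8 ≤ C * (1 + ‖y‖) * Real.exp (c * y.im)

/-- separated places -/
def Sep (J : Finset ℝ) (w : ℝ) : Prop := ∀ a ∈ J, ∀ b ∈ J, a ≠ b → 2 * w < |a - b|

/-! ## the rows -/

/-- the state map is injective at regular states -/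
def S_INJ : Prop := ∀ (g Y δ : ℂ → ℂ) (W T τ : ℝ), ML g W T τ Y δ → ∀ x ∈ Lo T, ∀ x' ∈ Lo T,
  δ x * Complex.sin (δ x) ≠ 0 → Y x = Y x' → δ x = δ x' → x = x'

/-- valence of the model function -/
def S_VAL : Prop := ∀ k : ℝ, ∃ N : ℕ, ∀ (v : ℂ) (F : Finset ℂ),
  (∀ z ∈ F, ‖z‖ ≤ k ∧ SS z = v) → F.card ≤ N

/-- area with multiplicity -/
def S_MUL : Prop := ∀ (U E B : Set ℂ) (Y : ℂ → ℂ) (N : ℕ), IsOpen U → DifferentiableOn ℂ Y U →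
  MeasurableSet E → E ⊆ U → MapsTo Y E B → (∀ x ∈ E, deriv Y x ≠ 0) →
  (∀ (y : ℂ) (F : Finset ℂ), (∀ x ∈ F, x ∈ E ∧ Y x = y) → F.card ≤ N) →
  ∫⁻ x in E, ‖deriv Y x‖ₑ ^ 2 ≤ N * volume B

/-- the energy -/
def S_EN : Prop := ∀ k : ℝ, ∃ N : ℕ, ∀ (g Y δ : ℂ → ℂ) (W T τ R : ℝ), ML g W T τ Y δ →
  ∫⁻ x in {x | x ∈ Lo T ∧ ‖δ x‖ ≤ k ∧ ‖Y x‖ ≤ R}, ‖deriv Y x‖ₑ ^ 2 ≤
    N * volume (closedBall (0 : ℂ) R)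

/-- finitely many sheets below a good place -/
def S_SH : Prop := ∀ τ C W₁ D₁ L : ℝ, ∃ k : ℝ, 1 ≤ k ∧ ∀ (g Y δ : ℂ → ℂ) (W T w a : ℝ),
  ML g W T τ Y δ → W ≤ W₁ → T ≤ 0 → -D₁ < T → GP g τ C a → Bot Y δ D₁ L w a →
  Sheet δ T D₁ k w a

/-- a ray with small energy: an excursion gives a large set on which the curve is tiny -/
def S_RAY : Prop := ∀ (g Y δ : ℂ → ℂ) (W T τ D₁ k t E r : ℝ) (x : ℂ), ML g W T τ Y δ →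
  0 < t → 0 < k → 0 < r → r ≤ 2 * D₁ → 0 ≤ E → x ∈ Lo T → 3 * t ≤ ‖Y x‖ →
  (∀ z ∈ Lo T, ‖z - x‖ ≤ 2 * D₁ → z.im ≤ x.im → ‖δ z‖ ≤ k) →
  (∀ z : ℂ, ‖z - x‖ = 2 * D₁ → z.im ≤ x.im - D₁ → ‖Y z‖ ≤ 2 * t) →
  ∫⁻ z in {z | z ∈ Lo T ∧ ‖z - x‖ ≤ 2 * D₁ ∧ z.im ≤ x.im ∧ ‖Y z‖ ≤ 3 * t}, ‖deriv Y z‖ₑ ^ 2 ≤
    ENNReal.ofReal E →
  4 * E * Real.log (2 * D₁ / r) ≤ t ^ 2 →
  ∃ A : Set ℂ, (∀ y ∈ A, y.im ≤ -τ ∧ ‖y‖ ≤ 3 * t ∧ ‖g y‖ ≤ 8 * k * r / (W * t)) ∧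
    ENNReal.ofReal (t / 4) ≤ volume ((fun y : ℂ => ‖y‖) '' A)

/-- Hall: tiny values on large sets give exponential decay -/
def S_DEC : Prop := ∀ (g : ℂ → ℂ) (τ C c : ℝ), DifferentiableOn ℂ g (Lo 0) → 0 < τ → 0 < c →
  GP g τ C 0 → (∀ t₀ : ℝ, ∃ t ≥ t₀, ∃ A : Set ℂ,
    (∀ y ∈ A, y.im ≤ -τ ∧ ‖y‖ ≤ 3 * t ∧ ‖g y‖ ≤ Real.exp (-(c * t))) ∧
    ENNReal.ofReal (t / 4) ≤ volume ((fun y : ℂ => ‖y‖) '' A)) → Decay g τ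

/-- excursions have density zero -/
def S_EXC : Prop := ∀ (g Y δ : ℂ → ℂ) (W T τ C D₁ L k w ν : ℝ), ML g W T τ Y δ → T ≤ 0 →
  -D₁ < T → 0 < k → 0 ≤ w → 0 < ν → GP g τ C 0 → ¬ Decay g τ → ∃ t₀ : ℝ, ∀ t ≥ t₀,
  ∀ J : Finset ℝ, Sep J (w + 2 * D₁) → (∀ a ∈ J, |a| ≤ t ∧ Bot Y δ D₁ L (w + 2 * D₁) a ∧
    Sheet δ T D₁ k (w + 2 * D₁) a ∧ Exc Y T D₁ w a (3 * t)) → (J.card : ℝ) ≤ ν * t

/-- one place for most parameters (outer measure, no measurability) -/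
def S_ONE : Prop := ∀ (I : Set ℝ) (P : ℝ → Prop) (Bad : ℝ → ℝ → Prop) (w κ ε : ℝ),
  MeasurableSet I → volume I ≠ ⊤ → 0 < κ → 0 < ε →
  (∀ t₀ : ℝ, ∃ t ≥ t₀, ∃ J : Finset ℝ, Sep J w ∧ (∀ a ∈ J, |a| ≤ t ∧ P a) ∧ κ * t ≤ J.card) →
  (∀ W ∈ I, ∀ ν : ℝ, 0 < ν → ∃ t₀ : ℝ, ∀ t ≥ t₀, ∀ J : Finset ℝ, Sep J w →
    (∀ a ∈ J, |a| ≤ t ∧ P a ∧ Bad a W) → (J.card : ℝ) ≤ ν * t) →
  ∃ a, P a ∧ volume I ≤ volume {W | W ∈ I ∧ ¬ Bad a W} + ENNReal.ofReal ε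

/-- THE OUTPUT: one good place at which, for most steps, the leaf and its half angle are bounded
on the column of half width `w` -/
def S_COL : Prop := ∀ (g : ℂ → ℂ) (Y δ : ℝ → ℂ → ℂ) (T : ℝ → ℝ) (I : Set ℝ) (P : ℝ → Prop)
  (τ C W₁ D₁ L w κ ε : ℝ), MeasurableSet I → volume I ≠ ⊤ → 0 ≤ w → 0 < κ → 0 < ε →
  (∀ W ∈ I, ML g W (T W) τ (Y W) (δ W) ∧ W ≤ W₁ ∧ T W ≤ 0 ∧ -D₁ < T W) →
  GP g τ C 0 → ¬ Decay g τ →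
  (∀ a, P a → GP g τ C a ∧ ∀ W ∈ I, Bot (Y W) (δ W) D₁ L (w + 2 * D₁) a) →
  (∀ t₀ : ℝ, ∃ t ≥ t₀, ∃ J : Finset ℝ, Sep J (w + 2 * D₁) ∧ (∀ a ∈ J, |a| ≤ t ∧ P a) ∧
    κ * t ≤ J.card) →
  ∃ a k : ℝ, P a ∧ (∀ W ∈ I, Sheet (δ W) (T W) D₁ k (w + 2 * D₁) a) ∧
    volume I ≤ volume {W | W ∈ I ∧ ∃ R, ¬ Exc (Y W) (T W) D₁ w a R} + ENNReal.ofReal ε

end Vale.Agent.P097D
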