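import Vale.Agent.P097D.Inj

/-!
# P097D: the finite list of obstacles on the top of a bounded column (definitions and statements)
-/

set_option linter.all false

noncomputable section

namespace Vale.Agent.P097D

open Set Metric Filter Topology

/-- no pinch: the fold states of the step `W` are not critical points of the curve -/
def NoP (g : ℂ → ℂ) (W : ℝ) : Prop := ∀ y ∈ Lo 0, ∀ d : ℂ, d ≠ 0 → Complex.sin d = 0 →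
  (W * g y) ^ 3 = 24 * SS d → deriv g y ≠ 0

/-- a chart at the top point `z`: the state is a function of the coordinate `e`, which has the
limit `η`, and `X` is the time -/
structure Cht (T : ℝ) (Y δ : ℂ → ℂ) (z : ℂ) (e P Q X : ℂ → ℂ) (η : ℂ) : Prop where
  aP : AnalyticAt ℂ P η
  aQ : AnalyticAt ℂ Q η
  aX : AnalyticAt ℂ X η
  X0 : X η = 0
  lim : Tendsto e (𝓝[Lo T] z) (𝓝 η)
  ev : ∀ᶠ x in 𝓝[Lo T] z, Y x = P (e x) ∧ δ x = Q (e x) ∧ X (e x) = x - z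

/-- the leaf continues over the top point `z` through regular states -/
def RegT (g : ℂ → ℂ) (W T : ℝ) (Y δ : ℂ → ℂ) (z : ℂ) : Prop := ∃ ρ > 0, ∃ Y₁ δ₁ : ℂ → ℂ,
  DifferentiableOn ℂ Y₁ (ball z ρ) ∧ DifferentiableOn ℂ δ₁ (ball z ρ) ∧
  (∀ x ∈ ball z ρ, x ∈ Lo T → Y₁ x = Y x ∧ δ₁ x = δ x) ∧
  ∀ x ∈ ball z ρ, Y₁ x ∈ Lo 0 ∧ (W * g (Y₁ x)) ^ 3 = 24 * SS (δ₁ x) ∧
    W * g (Y₁ x) * deriv Y₁ x = 2 * δ₁ x ∧ deriv Y₁ x ≠ 0 ∧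
    (δ₁ x = 0 ∨ Complex.sin (δ₁ x) ≠ 0)

/-- a fold at the top point `z` with the limit state `(y, d)`; coordinate `δ` -/
def FoldT (g : ℂ → ℂ) (W T : ℝ) (Y δ : ℂ → ℂ) (z y d : ℂ) : Prop :=
  y ∈ Lo 0 ∧ d ≠ 0 ∧ Complex.sin d = 0 ∧ g y ≠ 0 ∧ deriv g y ≠ 0 ∧ (W * g y) ^ 3 = 24 * SS d ∧
  ∃ P X : ℂ → ℂ, Cht T Y δ z δ P id X d ∧ P d = y ∧
    ∀ᶠ η in 𝓝 d, deriv X η * (W ^ 2 * g (P η) * deriv g (P η)) = 4 * Complex.sin η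

/-- a non principal zero at the top point `z` with the limit state `(y, d)`; coordinate `Y` -/
def ZT (g : ℂ → ℂ) (W T : ℝ) (Y δ : ℂ → ℂ) (z y d : ℂ) : Prop :=
  y ∈ Lo 0 ∧ d ≠ 0 ∧ Complex.sin d ≠ 0 ∧ g y = 0 ∧ SS d = 0 ∧
  ∃ Q X : ℂ → ℂ, Cht T Y δ z Y id Q X y ∧ Q y = d ∧
    ∀ᶠ η in 𝓝 y, deriv X η * (2 * Q η) = W * g η

/-- an obstacle -/
def ObsT (g : ℂ → ℂ) (W T : ℝ) (Y δ : ℂ → ℂ) (z : ℂ) : Prop :=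
  ∃ y d, FoldT g W T Y δ z y d ∨ ZT g W T Y δ z y d

/-- the state is bounded near the top point `z` -/
def BdT (T : ℝ) (Y δ : ℂ → ℂ) (z : ℂ) : Prop :=
  ∃ R : ℝ, ∀ᶠ x in 𝓝[Lo T] z, ‖Y x‖ ≤ R ∧ ‖δ x‖ ≤ R

/-! ## the rows -/

/-- 2421: the curve of states over `y` -/
def S_PA : Prop := ∀ (g Y δ : ℂ → ℂ) (W T τ : ℝ), ML g W T τ Y δ → ∀ y ∈ Lo 0, ∀ d : ℂ, d ≠ 0 →
  Complex.sin d ≠ 0 → (W * g y) ^ 3 = 24 * SS d → ∃ Q X : ℂ → ℂ, AnalyticAt ℂ Q y ∧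
  AnalyticAt ℂ X y ∧ Q y = d ∧ X y = 0 ∧ (∀ᶠ η in 𝓝 y, deriv X η * (2 * Q η) = W * g η) ∧
  ∀ᶠ p in 𝓝 (y, d), ∀ x ∈ Lo T, (Y x, δ x) = p →
    δ x = Q (Y x) ∧ deriv X (Y x) * deriv Y x = 1

/-- 2422: the curve of states over `d` -/
def S_PB : Prop := ∀ (g Y δ : ℂ → ℂ) (W T τ : ℝ), ML g W T τ Y δ → ∀ y ∈ Lo 0, ∀ d : ℂ, d ≠ 0 →
  g y ≠ 0 → deriv g y ≠ 0 → (W * g y) ^ 3 = 24 * SS d → ∃ P X : ℂ → ℂ, AnalyticAt ℂ P d ∧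
  AnalyticAt ℂ X d ∧ P d = y ∧ X d = 0 ∧
  (∀ᶠ η in 𝓝 d, deriv X η * (W ^ 2 * g (P η) * deriv g (P η)) = 4 * Complex.sin η) ∧
  ∀ᶠ p in 𝓝 (y, d), ∀ x ∈ Lo T, (Y x, δ x) = p →
    Y x = P (δ x) ∧ deriv X (δ x) * deriv δ x = 1

/-- 2423: the reduced first integral -/
def S_SIG : Prop := ∃ σ : ℂ → ℂ, Differentiable ℂ σ ∧ σ 0 = 1 ∧ (∀ z, z ^ 3 * σ z = 3 * SS z) ∧
  ∀ (g Y δ : ℂ → ℂ) (W T τ : ℝ), ML g W T τ Y δ → ∀ x ∈ Lo T, deriv Y x ^ 3 * σ (δ x) = 1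

/-- 2424: the curve of states at a principal zero -/
def S_P0 : Prop := ∀ (g Y δ : ℂ → ℂ) (W T τ : ℝ), ML g W T τ Y δ → ∀ y ∈ Lo 0, g y = 0 →
  ∀ u : ℂ, u ^ 3 = 1 → ∃ Q R X : ℂ → ℂ, AnalyticAt ℂ Q y ∧ AnalyticAt ℂ R y ∧ AnalyticAt ℂ X y ∧
  Q y = 0 ∧ R y = u ∧ X y = 0 ∧ deriv X y ≠ 0 ∧
  ∀ᶠ p in 𝓝 (y, (0 : ℂ), u), ∀ x ∈ Lo T, (Y x, δ x, deriv Y x) = p →
    δ x = Q (Y x) ∧ deriv Y x = R (Y x) ∧ deriv X (Y x) * deriv Y x = 1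

/-- 2425: pinches happen for countably many steps -/
def S_GEN : Prop := ∀ g : ℂ → ℂ, DifferentiableOn ℂ g (Lo 0) →
  {W : ℝ | 0 < W ∧ ¬ NoP g W}.Countable

/-- 2426: a cluster state with a local chart is the limit -/
def S_TRAP : Prop := ∀ (E : Type) [MetricSpace E] (T : ℝ) (z : ℂ) (s P : ℂ → E) (e X : ℂ → ℂ)
  (η : ℂ), z.im = T → ContinuousOn s (Lo T) → DifferentiableOn ℂ e (Lo T) → AnalyticAt ℂ X η →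
  X η = 0 → (∀ᶠ ζ in 𝓝 η, ContinuousAt P ζ) →
  (∀ᶠ p in 𝓝 (P η, η), ∀ x ∈ Lo T, (s x, e x) = p →
    s x = P (e x) ∧ deriv X (e x) * deriv e x = 1) →
  MapClusterPt (P η, η) (𝓝[Lo T] z) (fun x => (s x, e x)) →
  Tendsto e (𝓝[Lo T] z) (𝓝 η) ∧ ∀ᶠ x in 𝓝[Lo T] z, s x = P (e x) ∧ X (e x) = x - z

/-- 2427: a chart with a regular time gives the continuation -/
def S_REG : Prop := ∀ (g Y δ : ℂ → ℂ) (W T τ : ℝ) (z y : ℂ) (Q X : ℂ → ℂ), ML g W T τ Y δ →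
  z.im = T → Cht T Y δ z Y id Q X y → y ∈ Lo 0 → deriv X y ≠ 0 →
  (Q y = 0 ∨ Complex.sin (Q y) ≠ 0) → RegT g W T Y δ z

/-- 2428: every top point with bounded states is regular or an obstacle -/
def S_TRI : Prop := ∀ (g Y δ : ℂ → ℂ) (W T τ : ℝ) (z : ℂ), ML g W T τ Y δ → NoP g W → z.im = T →
  BdT T Y δ z → RegT g W T Y δ z ∨ ObsT g W T Y δ z

/-- 2429: obstacles are isolated -/
def S_ISO : Prop := ∀ (g Y δ : ℂ → ℂ) (W T τ : ℝ) (z : ℂ), ML g W T τ Y δ → z.im = T →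
  RegT g W T Y δ z ∨ ObsT g W T Y δ z →
  ∀ᶠ z' in 𝓝[≠] z, z'.im = T → ¬ ObsT g W T Y δ z'

/-- THE OUTPUT: finitely many obstacles on a compact piece of the top with bounded states -/
def S_FINO : Prop := ∀ (g Y δ : ℂ → ℂ) (W T τ : ℝ) (K : Set ℝ), ML g W T τ Y δ → NoP g W →
  IsCompact K → (∀ p ∈ K, BdT T Y δ ⟨p, T⟩) → ∃ F : Finset ℝ, (∀ p ∈ F, p ∈ K ∧
    ObsT g W T Y δ ⟨p, T⟩ ∧ ¬ RegT g W T Y δ ⟨p, T⟩) ∧ ∀ p ∈ K, p ∉ F → RegT g W T Y δ ⟨p, T⟩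

end Vale.Agent.P097D
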