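import Vale.Agent.P097D.FinDefs

/-!
# P097D: pinches happen for countably many steps
-/

set_option linter.all false

noncomputable section

namespace Vale.Agent.P097D

open Set Metric Filter Topology

theorem crit_cnt {g : ℂ → ℂ} (hg : DifferentiableOn ℂ g (Lo 0)) :
    (g '' {y | y ∈ Lo 0 ∧ deriv g y = 0}).Countable := by
  have o : IsOpen (Lo 0) := isOpen_lt Complex.continuous_im continuous_const
  have cv : Convex ℝ (Lo 0) := convex_halfSpace_im_lt 0
  have a := (hg.analyticOnNhd o).deriv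
  rcases a.eqOn_zero_or_eventually_ne_zero_of_preconnected cv.isPreconnected with h | h
  · refine Set.Subsingleton.countable ?_
    rintro _ ⟨y, hy, rfl⟩ _ ⟨z, hz, rfl⟩
    exact o.is_const_of_deriv_eq_zero cv.isPreconnected hg h hy.1 hz.1
  · have d : IsDiscrete ({y | deriv g y = 0} ∩ Lo 0) := isDiscrete_of_codiscreteWithin h
    refine ((HereditarilyLindelofSpace.isLindelof _).countable_of_isDiscrete d).image g |>.mono ?_
    rintro _ ⟨y, hy, rfl⟩
    exact ⟨y, ⟨hy.2, hy.1⟩, rfl⟩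

theorem gen : S_GEN := by
  intro g hg
  have c : (⋃ v ∈ g '' {y | y ∈ Lo 0 ∧ deriv g y = 0}, ⋃ k : ℤ,
      {W : ℝ | 0 < W ∧ SS (k * Real.pi) ≠ 0 ∧ (W * v) ^ 3 = 24 * SS (k * Real.pi)}).Countable := by
    refine (crit_cnt hg).biUnion fun v _ => countable_iUnion fun k => Set.Subsingleton.countable ?_
    rintro W ⟨h0, hS, h⟩ W' ⟨h0', -, h'⟩
    have hv : v ≠ 0 := by
      rintro rfl
      apply hS
      have : (24 : ℂ) * SS (k * Real.pi) = 0 := by rw [← h]; ring
      exact (mul_eq_zero.1 this).resolve_left (by norm_num)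
    have e : ((W ^ 3 : ℝ) : ℂ) = (W' ^ 3 : ℝ) := by
      apply mul_right_cancel₀ (pow_ne_zero 3 hv)
      push_cast
      rw [← mul_pow, ← mul_pow, h, h']
    exact (pow_left_inj₀ h0.le h0'.le three_ne_zero).1 (Complex.ofReal_injective e)
  refine c.mono ?_
  rintro W ⟨h0, hN⟩
  simp only [NoP, not_forall, not_not] at hN
  obtain ⟨y, hy, d, hd, hs, he, hc⟩ := hN
  have hS : SS d ≠ 0 := by
    have h1 := Complex.sin_sq_add_cos_sq d
    rw [SS, hs, zero_sub, neg_ne_zero]
    refine mul_ne_zero hd fun h => ?_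
    rw [hs, h] at h1
    norm_num at h1
  obtain ⟨k, rfl⟩ := Complex.sin_eq_zero_iff.1 hs
  exact mem_biUnion (mem_image_of_mem g ⟨hy, hc⟩) (mem_iUnion.2 ⟨k, h0, hS, he⟩)

end Vale.Agent.P097D
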