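import Vale.Agent.P097D.FinDefs

/-! P097D: the curve of states at a principal zero -/

set_option linter.all false

noncomputable section

namespace Vale.Agent.P097D

open Set Metric Filter Topology

theorem p0_inv {f : ℂ → ℂ} {a : ℂ} (hf : AnalyticAt ℂ f a) (h : deriv f a ≠ 0) :
    ∃ ι : ℂ → ℂ, AnalyticAt ℂ ι (f a) ∧ ι (f a) = a ∧ ∀ᶠ x in 𝓝 a, ι (f x) = x :=
  ⟨hf.hasStrictDerivAt.localInverse _ _ _ h, hf.analyticAt_localInverse h,
    HasStrictFDerivAt.localInverse_apply_image ..,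
    hf.hasStrictDerivAt.eventually_left_inverse h⟩

theorem p0_prim {f : ℂ → ℂ} {a : ℂ} (hf : AnalyticAt ℂ f a) :
    ∃ X : ℂ → ℂ, AnalyticAt ℂ X a ∧ X a = 0 ∧ ∀ᶠ x in 𝓝 a, deriv X x = f x := by
  obtain ⟨r, hr, hb⟩ := Metric.eventually_nhds_iff_ball.1 hf.eventually_analyticAt
  have hd : DifferentiableOn ℂ f (ball a r) := fun x hx =>
    (hb x hx).differentiableAt.differentiableWithinAt
  obtain ⟨F, hF⟩ := hd.isExactOn_ball
  have hG : ∀ x ∈ ball a r, HasDerivAt (fun z => F z - F a) (f x) x := fun x hx =>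
    (hF x hx).sub_const _
  refine ⟨fun z => F z - F a, ?_, sub_self _, ?_⟩
  · exact DifferentiableOn.analyticAt (s := ball a r)
      (fun x hx => (hG x hx).differentiableAt.differentiableWithinAt) (ball_mem_nhds a hr)
  · filter_upwards [ball_mem_nhds a hr] with x hx using (hG x hx).deriv

theorem p0 (S : S_SIG) : S_P0 := by
  obtain ⟨σ, hσ, σ0, -, hY⟩ := S
  intro g Y δ W T τ M y hy hg u hu
  have u0 : u ≠ 0 := by rintro rfl; norm_num at hu
  have a3 : AnalyticAt ℂ (fun z : ℂ => z ^ 3) u := by fun_prop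
  have d3 : deriv (fun z : ℂ => z ^ 3) u ≠ 0 := by
    rw [(hasDerivAt_pow 3 u).deriv]
    exact mul_ne_zero (by norm_num) (pow_ne_zero _ u0)
  obtain ⟨ι, aι, ιu, lι⟩ := p0_inv a3 d3
  simp only [hu] at aι ιu
  have aσ : AnalyticAt ℂ (fun d => (σ d)⁻¹) 0 :=
    (hσ.analyticAt 0).inv (by rw [σ0]; exact one_ne_zero)
  have ac : AnalyticAt ℂ (fun d => ι (σ d)⁻¹) 0 :=
    AnalyticAt.comp_of_eq aι aσ (by simp [σ0])
  set c : ℂ → ℂ := fun d => ι (σ d)⁻¹ with hc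
  have c0 : c 0 = u := by simp only [hc, σ0, inv_one, ιu]
  have ai : AnalyticAt ℂ (fun d => (c d)⁻¹) 0 := ac.inv (by rw [c0]; exact u0)
  have aE : AnalyticAt ℂ (fun d => 2 * d * (c d)⁻¹) 0 :=
    (analyticAt_const.mul analyticAt_id).mul ai
  have dE : deriv (fun d => 2 * d * (c d)⁻¹) 0 ≠ 0 := by
    have h1 : HasDerivAt (fun d : ℂ => 2 * d) 2 0 := by
      simpa using (hasDerivAt_id (0 : ℂ)).const_mul 2
    have h2 := h1.mul ai.differentiableAt.hasDerivAt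
    rw [show (fun d => 2 * d * (c d)⁻¹) = (fun d : ℂ => 2 * d) * fun d => (c d)⁻¹ from rfl,
      h2.deriv, c0]
    simpa using u0
  obtain ⟨κ, aκ, κ0, lκ⟩ := p0_inv aE dE
  simp only [mul_zero, zero_mul] at aκ κ0
  have ag : AnalyticAt ℂ (fun η => (W : ℂ) * g η) y := analyticAt_const.mul (M.ag hy)
  have aQ : AnalyticAt ℂ (fun η => κ (W * g η)) y := AnalyticAt.comp_of_eq aκ ag (by simp [hg])
  have Q0 : κ (W * g y) = 0 := by rw [hg, mul_zero, κ0]
  have aR : AnalyticAt ℂ (fun η => c (κ (W * g η))) y :=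
    AnalyticAt.comp_of_eq (g := c) (f := fun η => κ (W * g η)) ac aQ Q0
  have R0 : c (κ (W * g y)) = u := by rw [Q0, c0]
  obtain ⟨X, aX, X0, dX⟩ := p0_prim (aR.inv (by rw [R0]; exact u0))
  refine ⟨_, _, X, aQ, aR, aX, Q0, R0, X0, ?_, ?_⟩
  · rw [dX.self_of_nhds, Pi.inv_apply, R0]
    exact inv_ne_zero u0
  · have t1 : Tendsto (fun p : ℂ × ℂ × ℂ => p.1) (𝓝 (y, (0 : ℂ), u)) (𝓝 y) :=
      continuous_fst.tendsto _
    have t2 : Tendsto (fun p : ℂ × ℂ × ℂ => p.2.1) (𝓝 (y, (0 : ℂ), u)) (𝓝 0) :=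
      continuous_snd.fst.tendsto _
    have t3 : Tendsto (fun p : ℂ × ℂ × ℂ => p.2.2) (𝓝 (y, (0 : ℂ), u)) (𝓝 u) :=
      continuous_snd.snd.tendsto _
    filter_upwards [t1.eventually dX, t2.eventually lκ, t3.eventually lι] with p h1 h2 h3 x hx hp
    subst hp
    simp only at h1 h2 h3
    have e := hY g Y δ W T τ M x hx
    have y0 : deriv Y x ≠ 0 := by
      intro h
      rw [h] at e
      norm_num at e
    have e1 : c (δ x) = deriv Y x := by
      rw [hc, ← h3, eq_inv_of_mul_eq_one_left e]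
    have e2 : 2 * δ x * (c (δ x))⁻¹ = W * g (Y x) := by
      rw [e1, ← M.ode x hx, mul_inv_cancel_right₀ y0]
    rw [e2] at h2
    refine ⟨h2.symm, by rw [h2, e1], ?_⟩
    rw [h1, Pi.inv_apply, h2, e1, inv_mul_cancel₀ y0]

end Vale.Agent.P097D
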