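import Vale.Agent.P097D.FinDefs

/-!
# P097D: the curve of states over `y`
-/

set_option linter.all false

noncomputable section

namespace Vale.Agent.P097D

open Set Metric Filter Topology

/-- an analytic germ has an analytic primitive vanishing at the point -/
theorem pa_prim {f : ℂ → ℂ} {y : ℂ} (hf : AnalyticAt ℂ f y) : ∃ X : ℂ → ℂ, AnalyticAt ℂ X y ∧
    X y = 0 ∧ ∀ᶠ η in 𝓝 y, deriv X η = f η := by
  obtain ⟨ε, hε, hb⟩ := Metric.eventually_nhds_iff_ball.1 hf.eventually_analyticAt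
  have hd : DifferentiableOn ℂ f (ball y ε) :=
    fun w hw => (hb w hw).differentiableAt.differentiableWithinAt
  obtain ⟨G, hG⟩ := hd.isExactOn_ball
  have h1 : ∀ w ∈ ball y ε, HasDerivAt (fun z => G z - G y) (f w) w :=
    fun w hw => (hG w hw).sub_const _
  refine ⟨fun z => G z - G y, ?_, sub_self _, ?_⟩
  · exact DifferentiableOn.analyticAt (s := ball y ε)
      (fun w hw => (h1 w hw).differentiableAt.differentiableWithinAt) (ball_mem_nhds y hε)
  · filter_upwards [ball_mem_nhds y hε] with w hw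
    exact (h1 w hw).deriv

theorem pa : S_PA := by
  intro g Y δ W T τ M y hy d hd hs hinv
  have d' : deriv SS d ≠ 0 := by
    rw [(SS_deriv _).deriv]
    exact mul_ne_zero hd hs
  have aS := SS_an d
  have hS := aS.hasStrictDerivAt
  set ι := hS.localInverse SS _ d d' with hι
  have ιa : AnalyticAt ℂ ι (SS d) := by
    have := aS.contDiffAt (n := ⊤)
    exact (this.to_localInverse (hS.hasStrictFDerivAt_equiv d').hasFDerivAt (by simp)).analyticAt
  have ι0 : ι (SS d) = d := (hS.hasStrictFDerivAt_equiv d').localInverse_apply_image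
  have ιl : ∀ᶠ z in 𝓝 d, ι (SS z) = z := (hS.hasStrictFDerivAt_equiv d').eventually_left_inverse
  have ag := M.ag hy
  have e0 : ((W : ℂ) * g y) ^ 3 / 24 = SS d := by
    rw [hinv]
    ring
  have aH : AnalyticAt ℂ (fun η => ((W : ℂ) * g η) ^ 3 / 24) y :=
    ((analyticAt_const.mul ag).pow 3).div_const
  set Q : ℂ → ℂ := fun η => ι (((W : ℂ) * g η) ^ 3 / 24) with hQ
  have aQ : AnalyticAt ℂ Q y :=
    AnalyticAt.comp (g := ι) (f := fun η => ((W : ℂ) * g η) ^ 3 / 24) (e0 ▸ ιa) aH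
  have Q0 : Q y = d := by simp only [hQ, e0, ι0]
  have Qn : ∀ᶠ η in 𝓝 y, Q η ≠ 0 := aQ.continuousAt.eventually_ne (Q0 ▸ hd)
  obtain ⟨X, aX, X0, dX⟩ := pa_prim (f := fun η => (W : ℂ) * g η / (2 * Q η)) (y := y)
    ((analyticAt_const.mul ag).div (analyticAt_const.mul aQ)
      (mul_ne_zero two_ne_zero (Q0 ▸ hd)))
  have hX : ∀ᶠ η in 𝓝 y, deriv X η * (2 * Q η) = W * g η := by
    filter_upwards [dX, Qn] with η h1 h2
    rw [h1, div_mul_cancel₀ _ (mul_ne_zero two_ne_zero h2)]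
  refine ⟨Q, X, aQ, aX, Q0, X0, hX, ?_⟩
  have t1 : Tendsto (fun p : ℂ × ℂ => p.1) (𝓝 (y, d)) (𝓝 y) := continuous_fst.tendsto _
  have t2 : Tendsto (fun p : ℂ × ℂ => p.2) (𝓝 (y, d)) (𝓝 d) := continuous_snd.tendsto _
  filter_upwards [t1.eventually hX, t2.eventually ιl, t2.eventually (eventually_ne_nhds hd)]
    with p h1 h2 h3 x hx hp
  subst hp
  have h4 : δ x = Q (Y x) := by
    have h5 : ((W : ℂ) * g (Y x)) ^ 3 / 24 = SS (δ x) := by
      rw [M.inv x hx]
      ring
    simp only [hQ, h5]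
    exact h2.symm
  refine ⟨h4, ?_⟩
  have h6 := M.ode x hx
  have h7 : deriv X (Y x) * (2 * δ x) = W * g (Y x) := by
    rw [h4]
    exact h1
  have h8 : (2 : ℂ) * δ x ≠ 0 := mul_ne_zero two_ne_zero h3
  apply mul_right_cancel₀ h8
  linear_combination deriv Y x * h7 + h6

end Vale.Agent.P097D
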