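import Vale.Agent.P097D.FinDefs

/-!
# P097D: the curve of states over the half angle (row PB)
-/

set_option linter.all false

namespace Vale.Agent.P097D

open Set Metric Filter Topology

namespace PBL

/-- a local primitive -/
theorem prim {f : ℂ → ℂ} {d : ℂ} (hf : AnalyticAt ℂ f d) : ∃ X : ℂ → ℂ, AnalyticAt ℂ X d ∧
    X d = 0 ∧ ∀ᶠ η in 𝓝 d, deriv X η = f η := by
  obtain ⟨ε, ε0, hb⟩ := Metric.eventually_nhds_iff_ball.1 hf.eventually_analyticAt
  obtain ⟨X, X0, hX⟩ := (DifferentiableOn.isExactOn_ball (f := f) (c := d) (r := ε)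
    fun z hz => (hb z hz).differentiableAt.differentiableWithinAt).with_val_at d 0
  refine ⟨X, DifferentiableOn.analyticAt (s := ball d ε)
    (fun z hz => (hX z hz).differentiableAt.differentiableWithinAt) (ball_mem_nhds d ε0), X0, ?_⟩
  filter_upwards [ball_mem_nhds d ε0] with z hz using (hX z hz).deriv

/-- the differentiated first integral -/
theorem dinv {g Y δ : ℂ → ℂ} {W T τ : ℝ} (M : ML g W T τ Y δ) {x : ℂ} (hx : x ∈ Lo T)
    (h : δ x ≠ 0) :
    W ^ 2 * g (Y x) * deriv g (Y x) = 4 * Complex.sin (δ x) * deriv δ x := by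
  have h1 := (((M.ag (M.mem hx)).differentiableAt.hasDerivAt.comp x
    (M.aY hx).differentiableAt.hasDerivAt).const_mul (W : ℂ)).pow 3
  have h2 := ((SS_deriv (δ x)).comp x (M.aδ hx).differentiableAt.hasDerivAt).const_mul (24 : ℂ)
  have h3 := h1.unique (h2.congr_of_eventuallyEq (by
    filter_upwards [(Lo_open T).mem_nhds hx] with z hz using M.inv z hz))
  have h4 := M.ode x hx
  refine mul_left_cancel₀ h ?_
  simp only [Function.comp_apply] at h3
  push_cast at h3
  linear_combination (1 / 6 : ℂ) * h3 - (1 / 2 : ℂ) * (W ^ 2 * g (Y x) * deriv g (Y x)) * h4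

end PBL

open PBL in
theorem pb : S_PB := by
  intro g Y δ W T τ M y hy d d0 g0 g1 hs
  have W0 : (W : ℂ) ≠ 0 := Complex.ofReal_ne_zero.2 M.W0.ne'
  have ag := M.ag hy
  have aF : AnalyticAt ℂ (fun y => (W * g y) ^ 3) y := (analyticAt_const.mul ag).pow 3
  have dF : deriv (fun y => (W * g y) ^ 3) y ≠ 0 := by
    rw [((ag.differentiableAt.hasDerivAt.const_mul (W : ℂ)).fun_pow 3).deriv]
    simp [W0, g0, g1]
  have ιa := aF.analyticAt_localInverse dF
  have ιl := aF.hasStrictDerivAt.eventually_left_inverse dF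
  set ι := aF.hasStrictDerivAt.localInverse _ _ _ dF
  have aP : AnalyticAt ℂ (fun η => ι (24 * SS η)) d :=
    AnalyticAt.comp_of_eq ιa (analyticAt_const.mul (SS_an d)) hs.symm
  have P0 : ι (24 * SS d) = y := by rw [← hs]; exact ιl.self_of_nhds
  have aD : AnalyticAt ℂ (fun η => W ^ 2 * g (ι (24 * SS η)) * deriv g (ι (24 * SS η))) d :=
    (analyticAt_const.mul (ag.comp_of_eq aP P0)).mul (ag.deriv.comp_of_eq aP P0)
  have D0 : (W : ℂ) ^ 2 * g (ι (24 * SS d)) * deriv g (ι (24 * SS d)) ≠ 0 := by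
    rw [P0]; simp [W0, g0, g1]
  obtain ⟨X, aX, X0, hX⟩ := prim (((analyticAt_const (v := (4 : ℂ))).mul
    Complex.analyticAt_sin).div aD D0)
  have ev : ∀ᶠ η in 𝓝 d, (W : ℂ) ^ 2 * g (ι (24 * SS η)) * deriv g (ι (24 * SS η)) ≠ 0 ∧
      deriv X η * (W ^ 2 * g (ι (24 * SS η)) * deriv g (ι (24 * SS η))) = 4 * Complex.sin η := by
    filter_upwards [hX, aD.continuousAt.eventually_ne D0] with η e1 e2
    exact ⟨e2, by rw [e1]; exact div_mul_cancel₀ _ e2⟩
  refine ⟨fun η => ι (24 * SS η), X, aP, aX, P0, X0, ev.mono fun η e => e.2, ?_⟩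
  filter_upwards [(continuous_fst.tendsto (y, d)).eventually ιl,
    (continuous_snd.tendsto (y, d)).eventually (ev.and (eventually_ne_nhds d0))] with p e1 e2 x hx e
  subst e
  have k : ι (24 * SS (δ x)) = Y x := by rw [← M.inv x hx]; exact e1
  obtain ⟨⟨e2, e3⟩, e4⟩ := e2
  simp only [k] at e2 e3 ⊢
  refine ⟨trivial, mul_right_cancel₀ e2 ?_⟩
  linear_combination deriv δ x * e3 - dinv M hx e4

end Vale.Agent.P097D
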