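import Vale.Agent.P097D.FinDefs

/-!
# P097D, row 2427: a chart with a regular time gives the continuation
-/

set_option linter.all false

noncomputable section

namespace Vale.Agent.P097D

open Set Metric Filter Topology

namespace RegH

theorem top_ne {T : ℝ} {z : ℂ} (hz : z.im = T) : (𝓝[Lo T] z).NeBot :=
  mem_closure_iff_nhdsWithin_neBot.1 (by
    rw [Lo, Complex.closure_setOf_im_lt]
    exact hz.le)

/-- an analytic function which vanishes below the top point vanishes round it -/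
theorem top_zero {T : ℝ} {z : ℂ} {F : ℂ → ℂ} (hz : z.im = T) (hF : AnalyticAt ℂ F z)
    (h : ∀ᶠ x in 𝓝[Lo T] z, F x = 0) : ∀ᶠ x in 𝓝 z, F x = 0 := by
  haveI := top_ne hz
  refine hF.frequently_zero_iff_eventually_zero.1 (h.frequently.filter_mono
    (nhdsWithin_mono z fun x hx e => ?_))
  rw [mem_singleton_iff.1 e] at hx
  exact hz.not_lt hx

theorem sin_small {d : ℂ} (h : ‖d‖ < 1) : d = 0 ∨ Complex.sin d ≠ 0 := by
  refine or_iff_not_imp_right.2 fun e => ?_
  obtain ⟨k, rfl⟩ := Complex.sin_eq_zero_iff.1 (not_not.1 e)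
  rw [norm_mul, Complex.norm_intCast, Complex.norm_real, Real.norm_of_nonneg Real.pi_pos.le] at h
  have k1 : |(k : ℝ)| < 1 := by nlinarith [Real.pi_gt_three, abs_nonneg (k : ℝ)]
  have k2 : |k| < 1 := by exact_mod_cast k1
  rw [Int.abs_lt_one_iff.1 k2, Int.cast_zero, zero_mul]

end RegH

open RegH

theorem reg : S_REG := by
  intro g Y δ W T τ z y Q X M hz C hy hX hQ
  set ι : ℂ → ℂ := C.aX.hasStrictDerivAt.localInverse _ _ _ hX with hι
  have aι : AnalyticAt ℂ ι 0 := C.X0 ▸ C.aX.analyticAt_localInverse hX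
  have li : ∀ᶠ x in 𝓝 y, ι (X x) = x := C.aX.hasStrictDerivAt.eventually_left_inverse hX
  have ι0 : ι 0 = y := C.X0 ▸ li.self_of_nhds
  have dι : HasDerivAt ι (deriv X y)⁻¹ 0 :=
    C.X0 ▸ (C.aX.hasStrictDerivAt.to_localInverse hX).hasDerivAt
  have a1 : AnalyticAt ℂ (fun x => ι (x - z)) z :=
    aι.comp_of_eq (analyticAt_id.sub analyticAt_const) (sub_self z)
  have d1 : deriv (fun x => ι (x - z)) z ≠ 0 := by
    rw [deriv_comp_sub_const, sub_self, dι.deriv]
    exact inv_ne_zero hX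
  have v1 : (fun x => ι (x - z)) z = y := by simp only [sub_self, ι0]
  have e1 : ∀ᶠ x in 𝓝[Lo T] z, (fun x => ι (x - z)) x = Y x ∧ Q ((fun x => ι (x - z)) x) = δ x := by
    filter_upwards [C.ev, C.lim.eventually li] with x h1 h2
    simp only [← h1.2.2, h2, h1.2.1, and_self]
  generalize (fun x => ι (x - z)) = Y₁ at a1 d1 v1 e1
  have a2 : AnalyticAt ℂ (fun x => Q (Y₁ x)) z := C.aQ.comp_of_eq a1 v1
  have a3 : AnalyticAt ℂ (fun x => g (Y₁ x)) z := (M.ag hy).comp_of_eq a1 v1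
  have e1' := eventually_nhdsWithin_iff.1 e1
  have e2 : ∀ᶠ x in 𝓝[Lo T] z, deriv Y₁ x = deriv Y x := by
    filter_upwards [nhdsWithin_le_nhds e1'.eventually_nhds, self_mem_nhdsWithin] with x h hx
    refine EventuallyEq.deriv_eq ?_
    filter_upwards [h, (Lo_open T).mem_nhds hx] with w h1 h2 using (h1 h2).1
  have l1 : ∀ᶠ x in 𝓝 z, (W * g (Y₁ x)) ^ 3 - 24 * SS (Q (Y₁ x)) = 0 := by
    refine top_zero hz (((analyticAt_const.mul a3).pow 3).sub
      (analyticAt_const.mul ((SS_an _).comp a2))) ?_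
    filter_upwards [e1, self_mem_nhdsWithin] with x h hx
    rw [h.2, h.1, M.inv x hx, sub_self]
  have l2 : ∀ᶠ x in 𝓝 z, W * g (Y₁ x) * deriv Y₁ x - 2 * Q (Y₁ x) = 0 := by
    refine top_zero hz (((analyticAt_const.mul a3).mul a1.deriv).sub
      (analyticAt_const.mul a2)) ?_
    filter_upwards [e1, e2, self_mem_nhdsWithin] with x h h' hx
    rw [h.2, h.1, h', M.ode x hx, sub_self]
  have l3 : ∀ᶠ x in 𝓝 z, Y₁ x ∈ Lo 0 :=
    a1.continuousAt.eventually_mem ((Lo_open 0).mem_nhds (v1 ▸ hy))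
  have l4 : ∀ᶠ x in 𝓝 z, deriv Y₁ x ≠ 0 := a1.deriv.continuousAt.eventually_ne d1
  have l5 : ∀ᶠ x in 𝓝 z, Q (Y₁ x) = 0 ∨ Complex.sin (Q (Y₁ x)) ≠ 0 := by
    rcases hQ with h | h
    · have : ∀ᶠ x in 𝓝 z, ‖Q (Y₁ x)‖ < 1 := a2.continuousAt.norm.eventually_lt continuousAt_const
        (by simp only [v1, h, norm_zero, zero_lt_one])
      exact this.mono fun x hx => sin_small hx
    · exact ((Complex.continuous_sin.continuousAt.comp a2.continuousAt).eventually_ne
        (by simpa only [Function.comp, v1] using h)).mono fun x hx => Or.inr hx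
  obtain ⟨ρ, ρ0, hρ⟩ := Metric.eventually_nhds_iff_ball.1
    (a1.eventually_analyticAt.and (a2.eventually_analyticAt.and
      (e1'.and (l1.and (l2.and (l3.and (l4.and l5)))))))
  exact ⟨ρ, ρ0, Y₁, fun x => Q (Y₁ x),
    fun x hx => (hρ x hx).1.differentiableAt.differentiableWithinAt,
    fun x hx => (hρ x hx).2.1.differentiableAt.differentiableWithinAt,
    fun x hx => (hρ x hx).2.2.1, fun x hx =>
      let ⟨_, _, _, b1, b2, b3, b4, b5⟩ := hρ x hx
      ⟨b3, sub_eq_zero.1 b1, sub_eq_zero.1 b2, b4, b5⟩⟩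

end Vale.Agent.P097D
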