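import Vale.Agent.P097D.FinDefs
import Vale.Agent.P097Mo.Fin

/-! # P097D: the reduced first integral -/

set_option linter.all false

noncomputable section

namespace Vale.Agent.P097D

open Set Metric Filter Topology

namespace FinSig

open Classical in
/-- the reduced model function -/
def sg (z : ℂ) : ℂ := if z = 0 then 1 else 3 * SS z / z ^ 3

theorem sg_zero : sg 0 = 1 := if_pos rfl

theorem sg_ne {z : ℂ} (h : z ≠ 0) : sg z = 3 * SS z / z ^ 3 := if_neg h

theorem mul_sg (z : ℂ) : z ^ 3 * sg z = 3 * SS z := by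
  by_cases h : z = 0
  · subst h
    simp [SS]
  · rw [sg_ne h]
    field_simp

theorem dSS : Differentiable ℂ SS := by
  unfold SS
  fun_prop

theorem diff_ne {z : ℂ} (h : z ≠ 0) : DifferentiableAt ℂ sg z := by
  have e : sg =ᶠ[𝓝 z] fun w => 3 * SS w / w ^ 3 := by
    filter_upwards [isOpen_ne.mem_nhds h] with w hw
    exact sg_ne hw
  refine DifferentiableAt.congr_of_eventuallyEq ?_ e
  exact ((dSS z).const_mul 3).div (differentiableAt_pow 3) (pow_ne_zero 3 h)

theorem bound {z : ℂ} (hz : ‖z‖ ≤ 1) : ‖sg z - 1‖ ≤ 3 * ‖z‖ := by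
  by_cases h : z = 0
  · subst h
    simp [sg_zero]
  · have h1 : ‖SS z - z ^ 3 / 3‖ ≤ ‖z‖ ^ 4 := P097Mo.Sf_bound z hz
    have e : sg z - 1 = 3 * (SS z - z ^ 3 / 3) / z ^ 3 := by
      rw [sg_ne h]
      field_simp
    have h2 : 0 < ‖z‖ := norm_pos_iff.2 h
    rw [e, norm_div, norm_mul, norm_pow, div_le_iff₀ (by positivity)]
    have h3 : ‖(3 : ℂ)‖ = 3 := by simp
    rw [h3]
    nlinarith

theorem cont_zero : ContinuousAt sg 0 := by
  rw [ContinuousAt, sg_zero, tendsto_iff_norm_sub_tendsto_zero]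
  have h1 : Tendsto (fun z : ℂ => 3 * ‖z‖) (𝓝 0) (𝓝 0) := by
    have h : Continuous fun z : ℂ => 3 * ‖z‖ := by fun_prop
    have h2 := h.tendsto 0
    rwa [norm_zero, mul_zero] at h2
  refine squeeze_zero' (Eventually.of_forall fun _ => norm_nonneg _) ?_ h1
  filter_upwards [closedBall_mem_nhds (0 : ℂ) one_pos] with z hz
  exact bound (mem_closedBall_zero_iff.1 hz)

theorem diff : Differentiable ℂ sg := by
  intro z
  by_cases h : z = 0
  · subst h
    refine (Complex.analyticAt_of_differentiable_on_punctured_nhds_of_continuousAt ?_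
      cont_zero).differentiableAt
    filter_upwards [self_mem_nhdsWithin] with w hw
    exact diff_ne hw
  · exact diff_ne h

end FinSig

open FinSig

theorem sig : S_SIG := by
  refine ⟨sg, diff, sg_zero, mul_sg, fun g Y δ W T τ M => ?_⟩
  have ho : IsOpen (Lo T) := isOpen_lt Complex.continuous_im continuous_const
  have hc : IsPreconnected (Lo T) := (convex_halfSpace_im_lt T).isPreconnected
  have aδ : AnalyticOnNhd ℂ δ (Lo T) := M.anδ.analyticOnNhd ho
  have aY : AnalyticOnNhd ℂ Y (Lo T) := M.anY.analyticOnNhd ho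
  have aF : AnalyticOnNhd ℂ (fun x => deriv Y x ^ 3 * sg (δ x) - 1) (Lo T) := fun x hx =>
    (((aY.deriv x hx).pow 3).mul ((diff.analyticAt _).comp (aδ x hx))).sub analyticAt_const
  have a3 : AnalyticOnNhd ℂ (fun x => δ x ^ 3) (Lo T) := fun x hx => (aδ x hx).pow 3
  have h := AnalyticOnNhd.eq_zero_or_eq_zero_of_mul_eq_zero a3 aF (fun x hx => ?_) hc
  · rcases h with h | h
    · obtain ⟨x, hx, h1⟩ := M.ne
      exact absurd (by rw [pow_eq_zero_iff (by norm_num) |>.1 (h x hx), zero_mul]) h1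
    · exact fun x hx => sub_eq_zero.1 (h x hx)
  · have h1 := M.inv x hx
    have h2 := M.ode x hx
    have h3 := mul_sg (δ x)
    have h4 : (W * g (Y x)) ^ 3 * deriv Y x ^ 3 = 8 * δ x ^ 3 := by
      rw [← mul_pow, h2]; ring
    linear_combination (deriv Y x ^ 3) * h3 + (1 / 8) * h4 - (deriv Y x ^ 3 / 8) * h1

end Vale.Agent.P097D
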