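import Vale.Agent.P097D.FinDefs

/-!
# P097D row 2426: a cluster state with a local chart is the limit
-/

set_option linter.all false

noncomputable section

namespace Vale.Agent.P097D

open Set Metric Filter Topology

theorem Lo_neBot {T : ℝ} {z : ℂ} (hz : z.im = T) : (𝓝[Lo T] z).NeBot := by
  rw [← mem_closure_iff_nhdsWithin_neBot, Lo, Complex.closure_setOf_im_lt]
  exact hz.le

theorem trap : S_TRAP := by
  intro E _ T z s P e X η hz cs de aX X0 cP ch cl
  obtain ⟨U, hU, tU⟩ := mapClusterPt_iff_ultrafilter.1 cl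
  have uL : ∀ᶠ x in (U : Filter ℂ), x ∈ Lo T := hU self_mem_nhdsWithin
  have uz : Tendsto (fun x : ℂ => x) U (𝓝 z) := hU.trans nhdsWithin_le_nhds
  have ue : Tendsto e U (𝓝 η) := (continuous_snd.tendsto _).comp tU
  have uX : Tendsto (fun x => X (e x)) U (𝓝 0) := X0 ▸ aX.continuousAt.tendsto.comp ue
  have nz : ∀ᶠ ζ in 𝓝[≠] η, X ζ ≠ 0 := by
    rcases aX.eventually_eq_zero_or_eventually_ne_zero with h | h
    · exfalso
      have h' : ∀ᶠ ζ in 𝓝 η, deriv X ζ = 0 := by
        have : X =ᶠ[𝓝 η] fun _ => 0 := h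
        filter_upwards [this.deriv] with ζ h
        simpa using h
      obtain ⟨x, h1, h2, hx⟩ := ((tU.eventually ch).and ((ue.eventually h').and uL)).exists
      have := (h1 x hx rfl).2
      rw [h2, zero_mul] at this
      exact zero_ne_one this
    · exact h
  obtain ⟨N, hN, No, Nm⟩ := _root_.eventually_nhds_iff.1 ch
  have key : ∀ ε₀ > 0, ∀ᶠ x in 𝓝[Lo T] z, e x ∈ ball η ε₀ ∧ s x = P (e x) ∧ X (e x) = x - z := by
    intro ε₀ h0
    have c1 : ∀ᶠ ζ in 𝓝 η, (P ζ, ζ) ∈ N :=
      (cP.self_of_nhds.prodMk continuousAt_id).eventually (No.mem_nhds Nm)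
    obtain ⟨ε, hε, hb⟩ := Metric.nhds_basis_closedBall.eventually_iff.1
      (aX.eventually_analyticAt.and (cP.and (c1.and ((eventually_nhdsWithin_iff.1 nz).and
        (ball_mem_nhds η h0)))))
    obtain ⟨r, hr, hs⟩ := (isCompact_sphere η ε).exists_forall_le' (f := fun ζ => ‖X ζ‖) (a := 0)
      (fun ζ h => (hb (sphere_subset_closedBall h)).1.continuousAt.norm.continuousWithinAt)
      (fun ζ h => norm_pos_iff.2 ((hb (sphere_subset_closedBall h)).2.2.2.1 (fun e0 => by
        rw [mem_singleton_iff.1 e0] at h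
        simp at h
        exact hε.ne h)))
    have hr2 : 0 < r / 4 := by positivity
    obtain ⟨x₁, k1, k2, k3, k4, k5⟩ := (uL.and ((tU.eventually (No.mem_nhds Nm)).and
      ((ue.eventually (ball_mem_nhds η hε)).and ((uz.eventually (ball_mem_nhds z hr2)).and
        (uX.eventually (ball_mem_nhds 0 hr2)))))).exists
    set c := x₁ - X (e x₁) with hc
    set A : Set ℂ := {x | x ∈ Lo T ∧ (s x, e x) ∈ N ∧ e x ∈ ball η ε ∧ X (e x) = x - c} with hA
    have ce : ∀ x ∈ Lo T, DifferentiableAt ℂ e x := fun x hx =>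
      de.differentiableAt ((Lo_open T).mem_nhds hx)
    have cs' : ∀ x ∈ Lo T, ContinuousAt s x := fun x hx =>
      cs.continuousAt ((Lo_open T).mem_nhds hx)
    have Ao : IsOpen A := by
      refine isOpen_iff_mem_nhds.2 fun x ⟨h1, h2, h3, h4⟩ => ?_
      obtain ⟨ρ, hρ, hB⟩ := Metric.eventually_nhds_iff_ball.1
        ((show ∀ᶠ w in 𝓝 x, w ∈ Lo T from (Lo_open T).mem_nhds h1).and
          ((((cs' x h1).prodMk (ce x h1).continuousAt).eventually (No.mem_nhds h2)).and
            ((ce x h1).continuousAt.eventually (isOpen_ball.mem_nhds h3))))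
      have hd : ∀ w ∈ ball x ρ, HasDerivAt (fun w => X (e w) - w) 0 w := fun w hw => by
        obtain ⟨a, b, c⟩ := hB w hw
        exact ((((hb (ball_subset_closedBall c)).1.differentiableAt.hasDerivAt.comp w
          (ce w a).hasDerivAt)).sub (hasDerivAt_id w)).congr_deriv
          (by rw [(hN _ b w a rfl).2, sub_self])
      filter_upwards [ball_mem_nhds x hρ] with w hw
      have := isOpen_ball.is_const_of_deriv_eq_zero (convex_ball x ρ).isPreconnected
        (fun w hw => (hd w hw).differentiableAt.differentiableWithinAt)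
        (fun w hw => (hd w hw).deriv) hw (mem_ball_self hρ)
      exact ⟨(hB w hw).1, (hB w hw).2.1, (hB w hw).2.2, by linear_combination this + h4⟩
    have sub : Lo T ∩ ball z (r / 4) ⊆ A := by
      refine ((Lo_convex T).inter (convex_ball z _)).isPreconnected.subset_of_closure_inter_subset
        Ao ⟨x₁, ⟨k1, k4⟩, k1, k2, k3, by rw [hc]; ring⟩ ?_
      rintro x ⟨hx, h1, h2⟩
      have fx : ∃ᶠ w in 𝓝 x, w ∈ A := mem_closure_iff_frequently.1 hx
      have te := (ce x h1).continuousAt.tendsto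
      have m1 : e x ∈ closedBall η ε := isClosed_closedBall.mem_of_frequently_of_tendsto
        (fx.mono fun w hw => ball_subset_closedBall hw.2.2.1) te
      have m2 : X (e x) = x - c := tendsto_nhds_unique_of_frequently_eq
        ((hb m1).1.continuousAt.tendsto.comp te) (tendsto_id.sub_const c)
        (fx.mono fun w hw => hw.2.2.2)
      have m3 : s x = P (e x) := tendsto_nhds_unique_of_frequently_eq (cs' x h1).tendsto
        ((hb m1).2.1.tendsto.comp te) (fx.mono fun w hw => (hN _ hw.2.1 w hw.1 rfl).1)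
      refine ⟨h1, m3 ▸ (hb m1).2.2.1, ?_, m2⟩
      by_contra n
      have := hs (e x) (le_antisymm m1 (not_lt.1 n))
      rw [m2, hc] at this
      have e1 : x - (x₁ - X (e x₁)) = (x - z) - (x₁ - z) + X (e x₁) := by ring
      have e2 := norm_add_le ((x - z) - (x₁ - z)) (X (e x₁))
      have e3 := norm_sub_le (x - z) (x₁ - z)
      rw [mem_ball, dist_eq_norm] at h2
      rw [dist_eq_norm] at k4
      rw [dist_zero_right] at k5
      rw [e1] at this
      linarith
    have ev : ∀ᶠ x in 𝓝[Lo T] z, x ∈ A :=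
      mem_of_superset (inter_mem_nhdsWithin _ (ball_mem_nhds z hr2)) sub
    have cz : (0 : ℂ) = z - c := tendsto_nhds_unique_of_eventuallyEq uX (uz.sub_const c)
      ((ev.filter_mono hU).mono fun x hx => hx.2.2.2)
    filter_upwards [ev] with x hx
    exact ⟨(hb (ball_subset_closedBall hx.2.2.1)).2.2.2.2, (hN _ hx.2.1 x hx.1 rfl).1,
      by linear_combination hx.2.2.2 - cz⟩
  exact ⟨Metric.tendsto_nhds.2 fun ε hε => (key ε hε).mono fun x hx => hx.1,
    (key 1 one_pos).mono fun x hx => hx.2⟩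

end Vale.Agent.P097D
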