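import Vale.Agent.P097D.Defs

/-!
# P097D: finitely many sheets below a good place
-/

set_option linter.all false

noncomputable section

namespace Vale.Agent.P097D

open Set Metric Complex Filter Topology

theorem sh_open (T : ℝ) : IsOpen (Lo T) := isOpen_lt continuous_im continuous_const

/-- Schwarz lemma for maps into the lower half plane -/
theorem sh_schw {Y : ℂ → ℂ} {T R : ℝ} (hY : DifferentiableOn ℂ Y (Lo T))
    (hn : ∀ x ∈ Lo T, (Y x).im < 0) {x₀ x : ℂ} (hR : x₀.im + R ≤ T) (hx : ‖x - x₀‖ < R) :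
    ‖Y x - Y x₀‖ * (R - ‖x - x₀‖) ≤ 2 * R * |(Y x₀).im| := by
  have R0 : 0 < R := (norm_nonneg _).trans_lt hx
  have sub : ball x₀ R ⊆ Lo T := fun z hz => by
    have h1 : (z - x₀).im ≤ ‖z - x₀‖ := (le_abs_self _).trans (abs_im_le_norm _)
    rw [mem_ball, dist_eq_norm] at hz
    simp only [sub_im] at h1
    show z.im < T
    linarith
  have h0 := hn x₀ (sub (mem_ball_self R0))
  set y := Y x₀ with hy
  have ne : ∀ z ∈ ball x₀ R, Y z - (starRingEnd ℂ) y ≠ 0 := fun z hz h => by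
    have := congrArg im h
    have h2 := hn z (sub hz)
    simp at this
    linarith
  have le : ∀ z ∈ ball x₀ R, ‖Y z - y‖ ≤ ‖Y z - (starRingEnd ℂ) y‖ := fun z hz => by
    have h2 := hn z (sub hz)
    rw [← sq_le_sq₀ (norm_nonneg _) (norm_nonneg _), Complex.sq_norm, Complex.sq_norm,
      normSq_apply, normSq_apply]
    simp only [sub_re, sub_im, conj_re, conj_im]
    nlinarith [mul_pos_of_neg_of_neg h0 h2]
  have key := Complex.dist_le_div_mul_dist_of_mapsTo_ball
    (f := fun z => (Y z - y) / (Y z - (starRingEnd ℂ) y)) (c := x₀) (R₁ := R) (R₂ := 1) (z := x)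
    (((hY.mono sub).sub_const _).div ((hY.mono sub).sub_const _) ne)
    (fun z hz => by
      simp only [← hy, sub_self, zero_div, mem_closedBall, dist_zero_right, norm_div]
      exact div_le_one_of_le₀ (le z hz) (norm_nonneg _))
    (by rwa [mem_ball, dist_eq_norm])
  have xb : x ∈ ball x₀ R := by rwa [mem_ball, dist_eq_norm]
  simp only [← hy, sub_self, zero_div, dist_zero_right, norm_div, dist_eq_norm, sub_zero] at key
  rw [div_le_iff₀ (norm_pos_iff.2 (ne x xb))] at key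
  have h3 : ‖Y x - (starRingEnd ℂ) y‖ ≤ ‖Y x - y‖ + 2 * |y.im| := by
    have e : Y x - (starRingEnd ℂ) y = (Y x - y) + (2 * y.im : ℝ) * I := by
      rw [← sub_conj]; ring
    rw [e]
    refine (norm_add_le _ _).trans ?_
    simp
  have h4 : R * ‖Y x - y‖ ≤ ‖x - x₀‖ * (‖Y x - y‖ + 2 * |y.im|) := by
    calc R * ‖Y x - y‖ ≤ R * (1 / R * ‖x - x₀‖ * ‖Y x - (starRingEnd ℂ) y‖) := by gcongr
      _ = ‖x - x₀‖ * ‖Y x - (starRingEnd ℂ) y‖ := by field_simp
      _ ≤ _ := by gcongr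
  nlinarith [abs_nonneg y.im, mul_le_mul_of_nonneg_right hx.le (abs_nonneg y.im)]

/-- the derivative of `cos δ` -/
theorem sh_id {g Y δ : ℂ → ℂ} {W T τ : ℝ} (m : ML g W T τ Y δ) {x : ℂ} (hx : x ∈ Lo T) :
    sin (δ x) * deriv δ x = (W : ℂ) ^ 2 * (g (Y x) * deriv g (Y x)) / 4 := by
  have nb := (sh_open T).mem_nhds hx
  have hY := (m.anY.differentiableAt nb).hasDerivAt
  have hd := (m.anδ.differentiableAt nb).hasDerivAt
  have yl : Y x ∈ Lo 0 := by
    have := m.dep x hx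
    have := m.τ0
    show (Y x).im < 0
    linarith
  have hg := (m.ang.differentiableAt ((sh_open 0).mem_nhds yl)).hasDerivAt
  have h1 := ((hg.comp x hY).const_mul (W : ℂ)).fun_pow 3
  have h2 := ((hd.csin.sub (hd.mul hd.ccos)).const_mul (24 : ℂ))
  have e : (fun z => ((W : ℂ) * (g ∘ Y) z) ^ 3) =ᶠ[𝓝 x]
      fun z => 24 * ((fun z => sin (δ z)) - δ * fun z => cos (δ z)) z := by
    filter_upwards [nb] with z hz
    simpa [SS] using m.inv z hz
  have h3 := h1.unique (h2.congr_of_eventuallyEq e)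
  have o := m.ode x hx
  by_cases h : δ x = 0
  · have i := m.inv x hx
    have W0 : (W : ℂ) ≠ 0 := by exact_mod_cast m.W0.ne'
    simp [h, SS, W0] at i
    simp [h, i]
  · simp only [Function.comp] at h3
    apply mul_left_cancel₀ h
    push_cast at h3
    linear_combination (-1 / 24 : ℂ) * h3 + (W : ℂ) ^ 2 * g (Y x) * deriv g (Y x) / 8 * o

/-- a function whose derivative has an integrable bound -/
theorem sh_var {u u' : ℝ → ℝ} {a b T A : ℝ} (hab : a ≤ b) (hb : b < T) (hA : 0 ≤ A)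
    (hu : ∀ s ∈ Icc a b, HasDerivAt u (u' s) s)
    (h : ∀ s ∈ Icc a b, |u' s| ≤ A / Real.sqrt (T - s)) :
    |u b - u a| ≤ 2 * A * Real.sqrt (T - a) := by
  have key := image_norm_le_of_norm_deriv_right_le_deriv_boundary' (a := a) (b := b)
    (f := fun s => u s - u a) (f' := u')
    (fun s hs => ((hu s hs).sub_const _).continuousAt.continuousWithinAt)
    (fun s hs => ((hu s (Ico_subset_Icc_self hs)).sub_const _).hasDerivWithinAt)
    (B := fun s => 2 * A * Real.sqrt (T - a) - 2 * A * Real.sqrt (T - s))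
    (B' := fun s => A / Real.sqrt (T - s)) (by simp) (by fun_prop)
    (fun s hs => by
      have p : T - s ≠ 0 := by have := hs.2; linarith
      have d := ((((hasDerivAt_id s).const_sub T).sqrt p).const_mul (2 * A)).const_sub
        (2 * A * Real.sqrt (T - a))
      refine (d.congr_deriv ?_).hasDerivWithinAt
      simp only [id]
      ring)
    (fun s hs => h s (Ico_subset_Icc_self hs)) (right_mem_Icc.2 hab)
  have := mul_nonneg (mul_nonneg zero_le_two hA) (Real.sqrt_nonneg (T - b))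
  simp only [Real.norm_eq_abs] at key
  linarith

theorem sh_sin (z : ℂ) : Real.sin z.re ^ 2 ≤ ‖sin z‖ ∧ |Real.sinh z.im| ≤ ‖sin z‖ := by
  have e : ‖sin z‖ ^ 2 = Real.sin z.re ^ 2 + Real.sinh z.im ^ 2 := by
    rw [Complex.sq_norm, normSq_apply, sin_eq z]
    simp only [← ofReal_sin, ← ofReal_cos, ← ofReal_sinh, ← ofReal_cosh, add_re, add_im, mul_re,
      mul_im, ofReal_re, ofReal_im, I_re, I_im]
    have h1 := Real.cosh_sq z.im
    have h2 := Real.sin_sq_add_cos_sq z.re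
    linear_combination Real.sin z.re ^ 2 * h1 + Real.sinh z.im ^ 2 * h2
  have s1 := Real.sin_sq_le_one z.re
  constructor
  · refine (abs_le_of_sq_le_sq' ?_ (norm_nonneg _)).2
    nlinarith [sq_nonneg (Real.sin z.re), sq_nonneg (Real.sinh z.im)]
  · exact abs_le_of_sq_le_sq' (by nlinarith [sq_nonneg (Real.sin z.re)]) (norm_nonneg _) |> abs_le.2

/-- the bound for the derivative of `cos δ` on a vertical -/
theorem sh_bd {g Y δ : ℂ → ℂ} {W T τ C W₁ D₁ L a ξ s : ℝ} (m : ML g W T τ Y δ) (hW : W ≤ W₁)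
    (hT : T ≤ 0) (G : GP g τ C a) (hL : ‖Y (ξ + (-D₁ : ℝ) * I) - a‖ ≤ L) (h1 : -D₁ ≤ s)
    (h2 : s < T) : ‖sin (δ (ξ + s * I))‖ * ‖deriv δ (ξ + s * I)‖ ≤
      W₁ ^ 2 * (Real.sqrt D₁ + Real.sqrt (C * (D₁ * (1 + τ / 2 + 3 * L)))) / (2 * τ) /
        Real.sqrt (T - s) := by
  have τ0 := m.τ0
  have W0 := m.W0
  set x : ℂ := ξ + s * I with hx
  set x₀ : ℂ := ξ + (-D₁ : ℝ) * I with hx₀
  set h := T - s with hh
  have h0 : 0 < h := by linarith
  have hD : h ≤ D₁ := by linarith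
  have L0 : 0 ≤ L := (norm_nonneg _).trans hL
  have C0 : 0 ≤ C := by
    have := G (((-τ / 2 : ℝ) : ℂ) * I) (by simp)
    exact nonneg_of_mul_nonneg_left ((by positivity : (0 : ℝ) ≤ _).trans this) (by positivity)
  have xl : x ∈ Lo T := by
    show x.im < T
    simpa [hx] using h2
  have n : ‖x - x₀‖ = s + D₁ := by
    have : x - x₀ = ((s + D₁ : ℝ) : ℂ) * I := by rw [hx, hx₀]; push_cast; ring
    rw [this, norm_mul, norm_I, mul_one, norm_real, Real.norm_of_nonneg (by linarith)]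
  have S := sh_schw (R := T + D₁) m.anY (fun z hz => by have := m.dep z hz; linarith)
    (x₀ := x₀) (x := x) (by simp [hx₀]) (by rw [n]; linarith)
  rw [n, show T + D₁ - (s + D₁) = h by rw [hh]; ring] at S
  have i0 : |(Y x₀).im| ≤ L := by
    have := abs_im_le_norm (Y x₀ - a)
    simp only [sub_im, ofReal_im, sub_zero] at this
    linarith
  have b1 : ‖Y x - a‖ * h ≤ 3 * (D₁ * L) := by
    have t : ‖Y x - a‖ ≤ ‖Y x - Y x₀‖ + ‖Y x₀ - a‖ := norm_sub_le_norm_sub_add_norm_sub _ _ _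
    have u : 2 * (T + D₁) * |(Y x₀).im| ≤ 2 * D₁ * L := by
      gcongr
      · linarith
      · linarith
    nlinarith [mul_le_mul_of_nonneg_left hD L0, mul_le_mul_of_nonneg_right (t.trans
      (add_le_add le_rfl hL)) h0.le]
  set C₂ := C * (D₁ * (1 + τ / 2 + 3 * L)) with hC₂
  have D0 : 0 ≤ D₁ := by linarith
  have C20 : 0 ≤ C₂ := by positivity
  set q := Real.sqrt C₂ / Real.sqrt h with hq
  have q0 : 0 ≤ q := by positivity
  have sh0 : 0 < Real.sqrt h := Real.sqrt_pos.2 h0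
  have q2 : q ^ 2 * h = C₂ := by
    rw [hq, div_pow, Real.sq_sqrt C20, Real.sq_sqrt h0.le]; field_simp
  set M := Real.sqrt (1 + q) with hM
  have M2 : M ^ 2 = 1 + q := Real.sq_sqrt (by linarith)
  have dp := m.dep x xl
  have cb : ∀ y ∈ closedBall (Y x) (τ / 2), y.im ≤ -τ / 2 := fun y hy => by
    rw [mem_closedBall, dist_eq_norm] at hy
    have := (le_abs_self _).trans (abs_im_le_norm (y - Y x))
    simp only [sub_im] at this
    linarith
  have gb : ∀ y ∈ closedBall (Y x) (τ / 2), ‖g y‖ ≤ M := fun y hy => by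
    have e1 := G y (cb y hy)
    rw [mem_closedBall, dist_eq_norm] at hy
    have t : ‖y - a‖ ≤ ‖y - Y x‖ + ‖Y x - a‖ := norm_sub_le_norm_sub_add_norm_sub _ _ _
    have e2 : (1 + ‖y - a‖) * h ≤ D₁ * (1 + τ / 2 + 3 * L) := by
      nlinarith [mul_le_mul_of_nonneg_right (t.trans (add_le_add hy le_rfl)) h0.le,
        mul_le_mul_of_nonneg_left hD τ0.le]
    have e3 : ‖g y‖ ^ 8 * h ≤ q ^ 2 * h := by
      rw [q2]
      calc _ ≤ C * (1 + ‖y - a‖) * h := by gcongr
        _ = C * ((1 + ‖y - a‖) * h) := by ring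
        _ ≤ _ := by rw [hC₂]; gcongr
    have e4 : ‖g y‖ ^ 8 ≤ M ^ 8 := by
      refine (le_of_mul_le_mul_right e3 h0).trans ?_
      rw [show M ^ 8 = (M ^ 2) ^ 4 by ring, M2]
      calc q ^ 2 ≤ (1 + q) ^ 2 := by gcongr; linarith
        _ ≤ (1 + q) ^ 4 := pow_le_pow_right₀ (by linarith) (by norm_num)
    exact le_of_pow_le_pow_left₀ (by norm_num) (Real.sqrt_nonneg _) e4
  have gd : ‖deriv g (Y x)‖ ≤ M / (τ / 2) := by
    refine Complex.norm_deriv_le_of_forall_mem_sphere_norm_le (by linarith) ?_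
      fun y hy => gb y (sphere_subset_closedBall hy)
    refine DifferentiableOn.diffContOnCl (m.ang.mono ?_)
    rw [closure_ball _ (by linarith)]
    intro y hy
    have := cb y hy
    show y.im < 0
    linarith
  have g0 := gb (Y x) (mem_closedBall_self (by linarith))
  have M0 : 0 ≤ M := Real.sqrt_nonneg _
  have one : 1 + q ≤ (Real.sqrt D₁ + Real.sqrt C₂) / Real.sqrt h := by
    rw [add_div, hq]
    gcongr
    exact (one_le_div sh0).2 (Real.sqrt_le_sqrt hD)
  rw [← norm_mul, sh_id m xl, norm_div, norm_mul, norm_mul, norm_pow, norm_real,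
    Real.norm_of_nonneg W0.le]
  calc W ^ 2 * (‖g (Y x)‖ * ‖deriv g (Y x)‖) / ‖(4 : ℂ)‖
      ≤ W₁ ^ 2 * (M * (M / (τ / 2))) / ‖(4 : ℂ)‖ := by gcongr
    _ = W₁ ^ 2 * M ^ 2 / (2 * τ) := by
      rw [show ‖(4 : ℂ)‖ = 4 by simp]; field_simp; ring
    _ ≤ W₁ ^ 2 * ((Real.sqrt D₁ + Real.sqrt C₂) / Real.sqrt h) / (2 * τ) := by
      rw [M2]; gcongr
    _ = _ := by ring

theorem sh : S_SH := by
  intro τ C W₁ D₁ L
  set A := W₁ ^ 2 * (Real.sqrt D₁ + Real.sqrt (C * (D₁ * (1 + τ / 2 + 3 * L)))) / (2 * τ) with hA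
  refine ⟨max 1 (3 * (2 * A * Real.sqrt D₁) + 2 + Real.cosh 1), le_max_left _ _, ?_⟩
  intro g Y δ W T w a m hW hT hD G B x hx h1 h2
  have τ0 := m.τ0
  rcases le_or_gt x.im (-D₁) with h3 | h3
  · exact (B x h1 h2 h3).2.trans (le_max_left _ _)
  refine le_trans ?_ (le_max_right _ _)
  have xT : x.im < T := hx
  have D0 : 0 < D₁ := by linarith
  have A0 : 0 ≤ A := by positivity
  obtain ⟨b1, b2⟩ := B (x.re + (-D₁ : ℝ) * I) (by simpa using h1) (by simp; linarith) (by simp)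
  have dd : ∀ s ∈ Icc (-D₁) x.im, HasDerivAt (fun s : ℝ => δ (x.re + s * I))
      (deriv δ (x.re + s * I) * I) s := fun s hs => by
    have xl : (x.re + s * I : ℂ) ∈ Lo T := by
      show (x.re + s * I : ℂ).im < T
      simpa using hs.2.trans_lt xT
    have d1 := (m.anδ.differentiableAt ((sh_open T).mem_nhds xl)).hasDerivAt
    have d2 : HasDerivAt (fun z : ℂ => (x.re : ℂ) + z * I) I (s : ℂ) := by
      simpa using ((hasDerivAt_id (s : ℂ)).mul_const I).const_add (x.re : ℂ)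
    exact (d1.comp (s : ℂ) d2).comp_ofReal
  have bd : ∀ s ∈ Icc (-D₁) x.im, ‖sin (δ (x.re + s * I))‖ * ‖deriv δ (x.re + s * I)‖ ≤
      A / Real.sqrt (T - s) := fun s hs => sh_bd m hW hT G b1 hs.1 (hs.2.trans_lt xT)
  have V : 2 * A * Real.sqrt (T - -D₁) ≤ 2 * A * Real.sqrt D₁ := by
    gcongr; linarith
  have r := sh_var (u := fun s : ℝ => (δ (x.re + s * I)).re / 2 -
      Real.sin (2 * (δ (x.re + s * I)).re) / 4)
    (u' := fun s => Real.sin (δ (x.re + s * I)).re ^ 2 * (deriv δ (x.re + s * I) * I).re)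
    h3.le xT A0
    (fun s hs => by
      have d := reCLM.hasFDerivAt.comp_hasDerivAt s (dd s hs)
      refine ((d.div_const 2).fun_sub ((d.const_mul 2).sin.div_const 4)).congr_deriv ?_
      simp only [Function.comp, reCLM_apply]
      rw [Real.cos_two_mul, Real.cos_sq']
      ring)
    (fun s hs => by
      refine le_trans ?_ (bd s hs)
      rw [abs_mul, abs_of_nonneg (sq_nonneg _)]
      exact mul_le_mul (sh_sin _).1 ((abs_re_le_norm _).trans (by simp)) (abs_nonneg _)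
        (norm_nonneg _))
  have i := sh_var (u := fun s : ℝ => Real.cosh (δ (x.re + s * I)).im)
    (u' := fun s => Real.sinh (δ (x.re + s * I)).im * (deriv δ (x.re + s * I) * I).im)
    h3.le xT A0
    (fun s hs => (imCLM.hasFDerivAt.comp_hasDerivAt s (dd s hs)).cosh)
    (fun s hs => by
      refine le_trans ?_ (bd s hs)
      rw [abs_mul]
      exact mul_le_mul (sh_sin _).2 ((abs_im_le_norm _).trans (by simp)) (abs_nonneg _)
        (norm_nonneg _))
  simp only [re_add_im] at r i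
  set d₀ := δ (x.re + (-D₁ : ℝ) * I)
  have r0 := abs_le.1 ((abs_re_le_norm d₀).trans b2)
  have i0 : Real.cosh d₀.im ≤ Real.cosh 1 :=
    Real.cosh_le_cosh.2 (by rw [abs_one]; exact (abs_im_le_norm d₀).trans b2)
  have i1 : |(δ x).im| ≤ Real.cosh (δ x).im := by
    rw [← Real.cosh_abs]
    exact (Real.self_le_sinh_iff.2 (abs_nonneg _)).trans (Real.sinh_lt_cosh _).le
  have s1 := abs_le.1 (Real.abs_sin_le_one (2 * (δ x).re))
  have s2 := abs_le.1 (Real.abs_sin_le_one (2 * d₀.re))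
  have r1 : |(δ x).re| ≤ 2 * (2 * A * Real.sqrt D₁) + 2 := by
    have := abs_le.1 (r.trans V)
    rw [abs_le]
    constructor <;> linarith [this.1, this.2, r0.1, r0.2, s1.1, s1.2, s2.1, s2.2]
  have := abs_le.1 (i.trans V)
  linarith [norm_le_abs_re_add_abs_im (δ x), this.2]

end Vale.Agent.P097D
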